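import Vale.Agent.P335.Defs
import Vale.Agent.P335.Avg

/-! Trades on the graphs with a given degree sequence: common definitions. -/

namespace Vale.Agent.P335

open Finset

/-- Fibres of `μ` through one fibre of `κ` have equally many points. -/
lemma fib_card_of_exchange {Ω K J : Type*} [Fintype Ω] [DecidableEq K] [DecidableEq J]
    {κ : Ω → K} {μ : Ω → J} (hinj : ∀ x y, κ x = κ y → μ x = μ y → x = y)
    (hex : ∀ x y z, κ y = κ x → μ z = μ y → ∃ u, μ u = μ x ∧ κ u = κ z)
    (x y : Ω) (h : κ y = κ x) : (fib μ y).card = (fib μ x).card := by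
  classical
  have le : ∀ x y, κ y = κ x → (fib μ x).card ≤ (fib μ y).card := by
    intro x y h
    have hu : ∀ z ∈ fib μ x, ∃ u, μ u = μ y ∧ κ u = κ z :=
      fun z hz => hex y x z h.symm (mem_fib.1 hz)
    choose u hu1 hu2 using hu
    refine Finset.card_le_card_of_injOn (fun z => if hz : z ∈ fib μ x then u z hz else z) ?_ ?_
    · intro z hz
      rw [Finset.mem_coe, mem_fib]
      simp only [dif_pos (Finset.mem_coe.1 hz)]
      exact hu1 z (Finset.mem_coe.1 hz)
    · intro z hz w hw hzw
      simp only [dif_pos (Finset.mem_coe.1 hz), dif_pos (Finset.mem_coe.1 hw)] at hzw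
      refine hinj z w ?_ ((mem_fib.1 hz).trans (mem_fib.1 hw).symm)
      rw [← hu2 z hz, ← hu2 w hw, hzw]
  exact le_antisymm (le y x h.symm) (le x y h)

/-- Two averages commute if the joint map is injective and two-step paths can be exchanged. -/
lemma avg_comm_of_exchange {Ω K J : Type*} [Fintype Ω] [DecidableEq K] [DecidableEq J]
    {κ : Ω → K} {μ : Ω → J} (hinj : ∀ x y, κ x = κ y → μ x = μ y → x = y)
    (hex : ∀ x y z, κ y = κ x → μ z = μ y → ∃ u, μ u = μ x ∧ κ u = κ z)
    (f : Ω → ℝ) : avg κ (avg μ f) = avg μ (avg κ f) := by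
  classical
  have hex' : ∀ x y z, μ y = μ x → κ z = κ y → ∃ u, κ u = κ x ∧ μ u = μ z := by
    intro x y z h1 h2
    obtain ⟨u, hu1, hu2⟩ := hex z y x h2.symm h1.symm
    exact ⟨u, hu2, hu1⟩
  refine avg_comm hinj (fun x z => ⟨?_, ?_⟩) (fib_card_of_exchange hinj hex)
    (fib_card_of_exchange (fun x y h h' => hinj x y h' h) hex') f
  · rintro ⟨y, h1, h2⟩
    obtain ⟨u, hu1, hu2⟩ := hex x y z h1 h2
    exact ⟨u, hu1, hu2.symm⟩
  · rintro ⟨y, h1, h2⟩
    obtain ⟨u, hu1, hu2⟩ := hex' x y z h1 h2
    exact ⟨u, hu1, hu2.symm⟩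

namespace Graph

open Classical in
/-- The adjacency entries of a graph. -/
noncomputable def adj {n : ℕ} {d : Fin n → ℕ} (G : Omega d) (u v : Fin n) : Bool :=
  decide (G.1.Adj u v)

variable {n : ℕ} {d : Fin n → ℕ}

lemma adj_iff (G : Omega d) (u v : Fin n) : adj G u v = true ↔ G.1.Adj u v := by simp [adj]

lemma adj_comm' (G : Omega d) (u v : Fin n) : adj G u v = adj G v u := by
  simp [adj, SimpleGraph.adj_comm]

lemma adj_self (G : Omega d) (u : Fin n) : adj G u u = false := by simp [adj]

lemma adj_sum (G : Omega d) (u : Fin n) : ∑ v, (adj G u v).toNat = d u := by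
  classical
  rw [← G.2 u, Set.ncard_eq_toFinset_card']
  rw [show (G.1.neighborSet u).toFinset = univ.filter fun v => G.1.Adj u v by ext v; simp,
    Finset.card_filter]
  refine Finset.sum_congr rfl fun v _ => ?_
  by_cases h : G.1.Adj u v <;> simp [adj, h]

lemma ext_adj {G H : Omega d} (h : ∀ u v, adj G u v = adj H u v) : G = H := by
  apply Subtype.ext
  ext u v
  rw [← adj_iff, ← adj_iff, h]

/-- The graph with a given symmetric loopless matrix of entries with the right row sums. -/
def mkO (M : Fin n → Fin n → Bool) (hs : ∀ u v, M u v = M v u) (h0 : ∀ u, M u u = false)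
    (hd : ∀ u, ∑ v, (M u v).toNat = d u) : Omega d :=
  ⟨{ Adj := fun u v => M u v = true
     symm := ⟨fun u v h => by rw [hs] at h; exact h⟩
     loopless := ⟨fun u h => by rw [h0] at h; exact Bool.noConfusion h⟩ }, fun u => by
    classical
    rw [← hd u, Set.ncard_eq_toFinset_card']
    rw [Finset.sum_congr rfl (fun v _ => show (M u v).toNat = if M u v = true then 1 else 0 by
      cases M u v <;> rfl), ← Finset.card_filter]
    congr 1; ext v; simp⟩

@[simp] lemma adj_mkO (M : Fin n → Fin n → Bool) (hs) (h0) (hd) (u v : Fin n) :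
    adj (mkO (d := d) M hs h0 hd) u v = M u v := by
  classical
  rw [Bool.eq_iff_iff, adj_iff]; rfl

/-- What is kept by a trade between `a` and `b`: all entries, except that for every third vertex
`v` only the number of edges from `{a, b}` to `v` is kept. -/
noncomputable def tkey (a b : Fin n) (G : Omega d) : Fin n → Fin n → ℕ := fun u v =>
  if (u = a ∨ u = b) ∧ v ≠ a ∧ v ≠ b then (adj G a v).toNat + (adj G b v).toNat
  else if (v = a ∨ v = b) ∧ u ≠ a ∧ u ≠ b then (adj G a u).toNat + (adj G b u).toNat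
  else (adj G u v).toNat

lemma tkey_eq_iff {a b : Fin n} (G H : Omega d) :
    tkey a b G = tkey a b H ↔
      (∀ u v, u ≠ a → u ≠ b → v ≠ a → v ≠ b → adj G u v = adj H u v) ∧ adj G a b = adj H a b ∧
        ∀ v, v ≠ a → v ≠ b →
          (adj G a v).toNat + (adj G b v).toNat = (adj H a v).toNat + (adj H b v).toNat := by
  have inj : ∀ p q : Bool, p.toNat = q.toNat → p = q := by decide
  constructor
  · intro h
    refine ⟨fun u v hu hu' hv hv' => inj _ _ ?_, inj _ _ ?_, fun v hv hv' => ?_⟩
    · simpa [tkey, hu, hu', hv, hv'] using congrFun (congrFun h u) v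
    · simpa [tkey] using congrFun (congrFun h a) b
    · simpa [tkey, hv, hv'] using congrFun (congrFun h a) v
  · rintro ⟨h1, h2, h3⟩
    funext u v
    by_cases hu : u = a ∨ u = b <;> by_cases hv : v = a ∨ v = b
    · have h2' : adj G b a = adj H b a := by rw [adj_comm' G b a, adj_comm' H b a, h2]
      rcases hu with rfl | rfl <;> rcases hv with rfl | rfl <;>
        simp [tkey, adj_self, h2, h2']
    · push Not at hv; simp [tkey, hu, hv, h3 v hv.1 hv.2]
    · push Not at hu; simp [tkey, hu, hv, h3 u hu.1 hu.2]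
    · push Not at hu hv; simp [tkey, hu, hv, h1 u v hu.1 hu.2 hv.1 hv.2]

lemma tkey_comm_iff {a b : Fin n} (G H : Omega d) :
    tkey b a G = tkey b a H ↔ tkey a b G = tkey a b H := by
  rw [tkey_eq_iff, tkey_eq_iff]
  constructor <;> rintro ⟨h1, h2, h3⟩ <;>
    refine ⟨fun u v p q r s => h1 u v q p s r, ?_, fun v p q => ?_⟩
  · rw [adj_comm' G a b, adj_comm' H a b, h2]
  · have := h3 v q p; omega
  · rw [adj_comm' G b a, adj_comm' H b a, h2]
  · have := h3 v q p; omega

lemma dev_tkey_comm (a b : Fin n) (f : Omega d → ℝ) : dev (tkey b a) f = dev (tkey a b) f := by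
  funext G
  have h : fib (tkey b a) G = fib (tkey a b) G := by
    ext H; simp only [mem_fib, tkey_comm_iff]
  simp only [dev_apply, Pi.sub_apply, avg_apply, h]

/-- The cells changed by a switch on the rectangle `a, b` × `c, e`. -/
def cell (a b c e u v : Fin n) : Prop :=
  ((u = a ∨ u = b) ∧ (v = c ∨ v = e)) ∨ ((v = a ∨ v = b) ∧ (u = c ∨ u = e))

instance (a b c e u v : Fin n) : Decidable (cell a b c e u v) := inferInstanceAs (Decidable (_ ∨ _))

/-- The switch `ac, be → ae, bc` can be applied. -/
def Sw (a b c e : Fin n) (G : Omega d) : Prop :=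
  a ≠ b ∧ a ≠ c ∧ a ≠ e ∧ b ≠ c ∧ b ≠ e ∧ c ≠ e ∧
    adj G a c = true ∧ adj G b e = true ∧ adj G a e = false ∧ adj G b c = false

noncomputable instance (a b c e : Fin n) (G : Omega d) : Decidable (Sw a b c e G) :=
  Classical.dec _

lemma cell_row {a b c e : Fin n} {G : Omega d} (h : Sw a b c e G) (u : Fin n) :
    ∑ v, (if cell a b c e u v then !adj G u v else adj G u v).toNat = d u := by
  obtain ⟨hab, hac, hae, hbc, hbe, hce, h1, h2, h3, h4⟩ := h
  rw [← adj_sum G u]
  have h5 := adj_comm' G c a; have h6 := adj_comm' G c b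
  have h7 := adj_comm' G e a; have h8 := adj_comm' G e b
  by_cases hu : u = a ∨ u = b
  · rw [← Finset.sum_add_sum_compl {c, e}, ← Finset.sum_add_sum_compl {c, e} (fun v => (adj G u v).toNat)]
    congr 1
    · rw [Finset.sum_pair hce, Finset.sum_pair hce]
      rcases hu with rfl | rfl <;> simp [cell, h1, h2, h3, h4]
    · refine Finset.sum_congr rfl fun v hv => ?_
      simp at hv
      have : ¬ (u = c ∨ u = e) := by
        rcases hu with rfl | rfl <;> simp [hac, hae, hbc, hbe]
      rw [if_neg]; rintro (⟨-, h⟩ | ⟨-, h⟩)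
      · rcases h with h | h
        · exact hv.1 h
        · exact hv.2 h
      · exact this h
  by_cases hu' : u = c ∨ u = e
  · rw [← Finset.sum_add_sum_compl {a, b}, ← Finset.sum_add_sum_compl {a, b} (fun v => (adj G u v).toNat)]
    congr 1
    · rw [Finset.sum_pair hab, Finset.sum_pair hab]
      rcases hu' with rfl | rfl <;> simp [cell, h1, h2, h3, h4, h5, h6, h7, h8]
    · refine Finset.sum_congr rfl fun v hv => ?_
      simp at hv
      rw [if_neg]; rintro (⟨h, -⟩ | ⟨h, -⟩)
      · exact hu h
      · rcases h with h | h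
        · exact hv.1 h
        · exact hv.2 h
  · refine Finset.sum_congr rfl fun v _ => ?_
    rw [if_neg]; rintro (⟨h, -⟩ | ⟨-, h⟩)
    · exact hu h
    · exact hu' h

/-- The switch `ac, be → ae, bc`, the identity where it cannot be applied. -/
noncomputable def swp (a b c e : Fin n) (G : Omega d) : Omega d :=
  if h : Sw a b c e G then
    mkO (fun u v => if cell a b c e u v then !adj G u v else adj G u v)
      (fun u v => by
        have : cell a b c e u v ↔ cell a b c e v u := by unfold cell; tauto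
        simp only [this, adj_comm' G u v])
      (fun u => by
        rw [if_neg, adj_self]
        obtain ⟨hab, hac, hae, hbc, hbe, hce, -⟩ := h
        rintro (⟨rfl | rfl, h | h⟩ | ⟨rfl | rfl, h | h⟩) <;> contradiction)
      (cell_row h)
  else G

lemma swp_adj {a b c e : Fin n} {G : Omega d} (h : Sw a b c e G) (u v : Fin n) :
    adj (swp a b c e G) u v = if cell a b c e u v then !adj G u v else adj G u v := by
  rw [swp, dif_pos h, adj_mkO]

lemma swp_of_not {a b c e : Fin n} {G : Omega d} (h : ¬ Sw a b c e G) : swp a b c e G = G :=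
  dif_neg h

lemma swp_tkey (a b c e : Fin n) (G : Omega d) : tkey a b (swp a b c e G) = tkey a b G := by
  by_cases h : Sw a b c e G
  swap
  · rw [swp_of_not h]
  rw [tkey_eq_iff]
  obtain ⟨hab, hac, hae, hbc, hbe, hce, h1, h2, h3, h4⟩ := h
  have h : Sw a b c e G := ⟨hab, hac, hae, hbc, hbe, hce, h1, h2, h3, h4⟩
  refine ⟨fun u v p q r s => ?_, ?_, fun v p q => ?_⟩
  · rw [swp_adj h, if_neg]; rintro (⟨h | h, -⟩ | ⟨h | h, -⟩) <;> contradiction
  · rw [swp_adj h, if_neg]; rintro (⟨-, h | h⟩ | ⟨-, h | h⟩)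
    · exact hbc h
    · exact hbe h
    · exact hac h
    · exact hae h
  · rw [swp_adj h, swp_adj h]
    rcases eq_or_ne v c with rfl | hvc
    · simp [cell, h1, h4]
    rcases eq_or_ne v e with rfl | hve
    · simp [cell, h2, h3]
    rw [if_neg, if_neg] <;> simp [cell, p, q, hvc, hve]

/-- The squared increments of `f` along one switch. -/
noncomputable def sd (f : Omega d → ℝ) (a b c e : Fin n) : ℝ :=
  ∑ G : Omega d, (f G - f (swp a b c e G)) ^ 2

/-- The Dirichlet form of the switches inside the trades of `a` and `b`. -/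
noncomputable def sdir (f : Omega d → ℝ) (a b : Fin n) : ℝ := ∑ c, ∑ e, sd f a b c e

lemma sd_nonneg (f : Omega d → ℝ) (a b c e : Fin n) : 0 ≤ sd f a b c e :=
  Finset.sum_nonneg fun _ _ => sq_nonneg _

/-- `c` and `e` are on different sides of the trade of `a` and `b`. -/
def Sep (a b c e : Fin n) (G : Omega d) : Prop := Sw a b c e G ∨ Sw a b e c G

noncomputable instance (a b c e : Fin n) (G : Omega d) : Decidable (Sep a b c e G) :=
  Classical.dec _

/-- The key of a trade together with whether `c` and `e` are separated. -/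
noncomputable def skey (a b c e : Fin n) (G : Omega d) : (Fin n → Fin n → ℕ) × Bool :=
  (tkey a b G, decide (Sep a b c e G))

/-- The squared biases of separation. -/
noncomputable def negp (f : Omega d → ℝ) (a b c e : Fin n) : ℝ :=
  ∑ G : Omega d,
    if Sep a b c e G then (avg (skey a b c e) f G - avg (tkey a b) f G) ^ 2 else 0

/-- The sum of all trades (each unordered pair of vertices twice). -/
noncomputable def RT : (Omega d → ℝ) →ₗ[ℝ] (Omega d → ℝ) :=
  ∑ a : Fin n, ∑ b ∈ univ.erase a, dev (tkey (d := d) a b)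

/-- The contribution of disjoint ordered pairs to `RT²`. -/
noncomputable def Dsum (f : Omega d → ℝ) : ℝ :=
  ∑ a : Fin n, ∑ b : Fin n, ∑ c : Fin n, ∑ e : Fin n,
    if a ≠ b ∧ c ≠ e ∧ a ≠ c ∧ a ≠ e ∧ b ≠ c ∧ b ≠ e then
      ip (dev (tkey a b) f) (dev (tkey c e) f) else 0

end Graph

end Vale.Agent.P335
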