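import Vale.Agent.P335.Chain
import Vale.Agent.P335.General.Trade

/-! Any two graphs with the same degrees are connected by switches: a function on `Omega d` that
is invariant under switches is constant. -/

namespace Vale.Agent.P335

open Finset Classical

variable {n : ℕ} {d : Fin n → ℕ}

/-- Switching a present pair `aj, bl` for the absent pair `al, bj` stays inside `Omega d`. -/
lemma exists_switch (G : Omega d) {a b j l : Fin n}
    (hab : a ≠ b) (haj : a ≠ j) (hal : a ≠ l) (hbj : b ≠ j) (hbl : b ≠ l) (hjl : j ≠ l)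
    (h1 : G.1.Adj a j) (h2 : G.1.Adj b l) (h3 : ¬ G.1.Adj a l) (h4 : ¬ G.1.Adj b j) :
    ∃ H : Omega d, ∀ u v, H.1.Adj u v ↔
      (G.1.Adj u v ∧ ¬ (s(u, v) = s(a, j) ∨ s(u, v) = s(b, l))) ∨ s(u, v) = s(a, l) ∨ s(u, v) = s(b, j) := by
  set p : Finset (Sym2 (Fin n)) × Finset (Sym2 (Fin n)) := ({s(a, j), s(b, l)}, {s(a, l), s(b, j)})
  have hp : p ∈ matchingPairs {a, b, j, l} := by
    simp only [matchingPairs, perfectMatchings, Finset.mem_filter, Finset.mem_product, Finset.mem_powerset, p]
    refine ⟨⟨⟨?_, ?_, ?_⟩, ⟨?_, ?_, ?_⟩⟩, ?_⟩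
    · intro x hx; simp at hx; rcases hx with rfl | rfl <;> simp
    · intro x hx; simp at hx; rcases hx with rfl | rfl <;> simp [haj, hbl]
    · intro v hv; simp at hv
      rcases hv with rfl | rfl | rfl | rfl <;>
        simp [Finset.filter_insert, Finset.filter_singleton, *, Ne.symm hab, Ne.symm haj, Ne.symm hal,
          Ne.symm hbj, Ne.symm hbl, Ne.symm hjl]
    · intro x hx; simp at hx; rcases hx with rfl | rfl <;> simp
    · intro x hx; simp at hx; rcases hx with rfl | rfl <;> simp [hal, hbj]
    · intro v hv; simp at hv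
      rcases hv with rfl | rfl | rfl | rfl <;>
        simp [Finset.filter_insert, Finset.filter_singleton, *, Ne.symm hab, Ne.symm haj, Ne.symm hal,
          Ne.symm hbj, Ne.symm hbl, Ne.symm hjl]
    · intro h
      have := Finset.ext_iff.1 h s(a, j)
      simp [hjl, hab, hal, haj] at this
  refine ⟨⟨move G.1 p.1 p.2, fun v => by rw [move_degree hp, G.2 v]⟩, fun u v => ?_⟩
  show (move G.1 p.1 p.2).Adj u v ↔ _
  unfold move
  rw [if_pos]
  · rw [SimpleGraph.fromEdgeSet_adj]
    simp only [p, Set.mem_union, Set.mem_diff, SimpleGraph.mem_edgeSet, Finset.coe_insert,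
      Finset.coe_singleton, Set.mem_insert_iff, Set.mem_singleton_iff]
    refine ⟨fun h => h.1, fun h => ⟨h, ?_⟩⟩
    rintro rfl
    rcases h with ⟨h, -⟩ | h | h
    · exact h.ne rfl
    · rcases Sym2.eq_iff.1 h with ⟨e1, e2⟩ | ⟨e1, e2⟩
      · exact hal (e1.symm.trans e2)
      · exact hal (e2.symm.trans e1)
    · rcases Sym2.eq_iff.1 h with ⟨e1, e2⟩ | ⟨e1, e2⟩
      · exact hbj (e1.symm.trans e2)
      · exact hbj (e2.symm.trans e1)
  · constructor
    · intro e he; simp [p] at he; rcases he with rfl | rfl <;> simp [h1, h2]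
    · intro e he; simp [p] at he; rcases he with rfl | rfl <;> simp [h3, h4]

/-- The hypothesis that `f` is invariant under switches. -/
def SwitchInvariant {β : Type*} (f : Omega d → β) : Prop :=
  ∀ (G H : Omega d) (a b j l : Fin n), a ≠ b → a ≠ j → a ≠ l → b ≠ j → b ≠ l → j ≠ l →
    G.1.Adj a j → G.1.Adj b l → ¬ G.1.Adj a l → ¬ G.1.Adj b j →
    (∀ u v, H.1.Adj u v ↔ (G.1.Adj u v ∧ ¬ (s(u, v) = s(a, j) ∨ s(u, v) = s(b, l))) ∨
      s(u, v) = s(a, l) ∨ s(u, v) = s(b, j)) → f G = f H

lemma card_nbr_compl (G : Omega d) (K : Finset (Fin n)) (v : Fin n) :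
    ((Kᶜ).filter fun w => G.1.Adj v w).card + (K.filter fun w => G.1.Adj v w).card = d v := by
  rw [add_comm, ← G.2 v, Set.ncard_eq_toFinset_card', ← Finset.card_union_of_disjoint
    (Finset.disjoint_filter_filter disjoint_compl_right), ← Finset.filter_union,
    Finset.union_compl]
  congr 1; ext w; simp

/-- One step: if `vx` is present and `vy` absent, and `y` has at least as many free neighbours as
`x`, some switch away from `K` exchanges `vx` for `vy` and changes no other edge at `v`. -/
lemma step {β : Type*} (f : Omega d → β) (hf : SwitchInvariant f) (G : Omega d) (K : Finset (Fin n))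
    {v x y : Fin n} (hv : v ∉ K) (hx : x ∉ K) (hy : y ∉ K) (hxy : x ≠ y)
    (h1 : G.1.Adj v x) (h2 : ¬ G.1.Adj v y) (hvy : v ≠ y)
    (hdeg : ((Kᶜ).filter fun w => G.1.Adj x w).card ≤ ((Kᶜ).filter fun w => G.1.Adj y w).card) :
    ∃ G' : Omega d, f G = f G' ∧ (∀ k ∈ K, ∀ w, G'.1.Adj k w ↔ G.1.Adj k w) ∧
      ∀ w, G'.1.Adj v w ↔ (G.1.Adj v w ∧ w ≠ x) ∨ w = y := by
  set Ny := ((Kᶜ).filter fun w => G.1.Adj y w).erase x with hNy
  set Nx := ((Kᶜ).filter fun w => G.1.Adj x w).erase y with hNx
  have hcard : Nx.card ≤ Ny.card := by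
    simp only [hNx, hNy, Finset.card_erase_eq_ite, Finset.mem_filter, Finset.mem_compl,
      hx, hy, not_false_eq_true, true_and, G.1.adj_comm y x]
    split_ifs <;> omega
  have hvx : v ∈ Nx := by simp [hNx, hvy, hv, h1.symm]
  obtain ⟨z, hzy, hzx⟩ : ∃ z ∈ Ny, z ∉ Nx := by
    by_contra hne
    push Not at hne
    have := Finset.eq_of_subset_of_card_le hne hcard
    have hmem : v ∈ Ny := this ▸ hvx
    simp [hNy] at hmem
    exact h2 hmem.2.2.symm
  simp only [hNy, Finset.mem_erase, Finset.mem_filter, Finset.mem_compl] at hzy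
  obtain ⟨hzx', hzK, hyz⟩ := hzy
  have hzy' : z ≠ y := hyz.ne.symm
  have hxz : ¬ G.1.Adj x z := fun h => hzx (by simp [hNx, hzy', hzK, h])
  have hvz : v ≠ z := by rintro rfl; exact h2 hyz.symm
  obtain ⟨G', hG'⟩ := exists_switch G hvz h1.ne hvy hzx' hzy' hxy h1 hyz.symm h2
    (fun h => hxz h.symm)
  refine ⟨G', hf G G' v z x y hvz h1.ne hvy hzx' hzy' hxy h1 hyz.symm h2 (fun h => hxz h.symm) hG',
    fun k hk w => ?_, fun w => ?_⟩
  · have e : ∀ p q : Fin n, p ∉ K → q ∉ K → ¬ s(k, w) = s(p, q) := by
      intro p q hp hq h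
      rcases Sym2.eq_iff.1 h with ⟨e1, -⟩ | ⟨e1, -⟩
      · exact hp (e1 ▸ hk)
      · exact hq (e1 ▸ hk)
    simp [hG', e v x hv hx, e z y hzK hy, e v y hv hy, e z x hzK hx]
  · rw [hG']
    have e1 : ∀ p, s(v, w) = s(v, p) ↔ w = p := fun p => Sym2.congr_right
    have e2 : ∀ p, p ≠ v → ¬ s(v, w) = s(z, p) := by
      intro p hp h
      rcases Sym2.eq_iff.1 h with ⟨e, -⟩ | ⟨e, -⟩
      · exact hvz e
      · exact hp e.symm
    simp [e1, e2 y hvy.symm, e2 x h1.ne.symm]

/-- The vertices at which the stars at `v` differ. -/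
noncomputable def starDiff (G H : Omega d) (v : Fin n) : Finset (Fin n) :=
  univ.filter fun w => ¬ (G.1.Adj v w ↔ H.1.Adj v w)

lemma const_aux {β : Type*} (f : Omega d → β) (hf : SwitchInvariant f) :
    ∀ m : ℕ, ∀ K : Finset (Fin n), (Kᶜ).card = m → ∀ G H : Omega d,
      (∀ k ∈ K, ∀ w, G.1.Adj k w ↔ H.1.Adj k w) → f G = f H := by
  intro m
  induction m using Nat.strong_induction_on with
  | _ m ih =>
    intro K hm
    rcases (Kᶜ).eq_empty_or_nonempty with he | ⟨v, hv⟩
    · intro G H hK
      congr 1; apply Subtype.ext; ext u w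
      exact hK u (by by_contra h; simpa [he] using Finset.mem_compl.2 h) w
    rw [Finset.mem_compl] at hv
    suffices inner : ∀ q : ℕ, ∀ G H : Omega d, (starDiff G H v).card = q →
        (∀ k ∈ K, ∀ w, G.1.Adj k w ↔ H.1.Adj k w) → f G = f H from fun G H hK => inner _ G H rfl hK
    intro q
    induction q using Nat.strong_induction_on with
    | _ q ihq =>
      intro G H hq hK
      rcases (starDiff G H v).eq_empty_or_nonempty with he | hne
      · refine ih _ ?_ (insert v K) rfl G H ?_
        · rw [← hm]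
          refine Finset.card_lt_card ((Finset.ssubset_iff_of_subset ?_).2 ⟨v, by simp [hv], by simp⟩)
          intro w; simp
        · intro k hk w
          rcases Finset.mem_insert.1 hk with rfl | hk
          · have := Finset.ext_iff.1 he w
            simpa [starDiff] using this
          · exact hK k hk w
      -- both graphs have an edge at `v` that the other lacks
      have hsame : ∀ G₁ : Omega d, ((univ : Finset (Fin n)).filter fun w => G₁.1.Adj v w).card = d v := by
        intro G₁
        rw [← G₁.2 v, Set.ncard_eq_toFinset_card']; congr 1; ext w; simp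
      obtain ⟨x, hx1, hx2⟩ : ∃ x, G.1.Adj v x ∧ ¬ H.1.Adj v x := by
        by_contra hno
        push Not at hno
        have := Finset.eq_of_subset_of_card_le
          (show ((univ : Finset (Fin n)).filter fun w => G.1.Adj v w) ⊆
            univ.filter fun w => H.1.Adj v w from fun w hw => by simp at hw ⊢; exact hno w hw)
          (by rw [hsame, hsame])
        obtain ⟨w, hw⟩ := hne
        have := Finset.ext_iff.1 this w
        simp [starDiff] at hw this
        exact hw this
      obtain ⟨y, hy1, hy2⟩ : ∃ y, H.1.Adj v y ∧ ¬ G.1.Adj v y := by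
        by_contra hno
        push Not at hno
        have := Finset.eq_of_subset_of_card_le
          (show ((univ : Finset (Fin n)).filter fun w => H.1.Adj v w) ⊆
            univ.filter fun w => G.1.Adj v w from fun w hw => by simp at hw ⊢; exact hno w hw)
          (by rw [hsame, hsame])
        have := (Finset.ext_iff.1 this x).2 (by simpa using hx1)
        simp at this
        exact hx2 this
      have hxK : x ∉ K := fun h => hx2 ((hK x h v).1 hx1.symm).symm
      have hyK : y ∉ K := fun h => hy2 ((hK y h v).2 hy1.symm).symm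
      have hxy : x ≠ y := by rintro rfl; exact hx2 hy1
      have hres : ∀ u, ((Kᶜ).filter fun w => G.1.Adj u w).card = ((Kᶜ).filter fun w => H.1.Adj u w).card := by
        intro u
        have e1 := card_nbr_compl G K u
        have e2 := card_nbr_compl H K u
        have e3 : (K.filter fun w => G.1.Adj u w) = K.filter fun w => H.1.Adj u w :=
          Finset.filter_congr fun w hw => by rw [G.1.adj_comm, H.1.adj_comm]; exact hK w hw u
        rw [e3] at e1; omega
      have dec : ∀ G₁ H₁ : Omega d, starDiff G₁ H₁ v ⊆ starDiff G H v →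
          x ∉ starDiff G₁ H₁ v → (starDiff G₁ H₁ v).card < q := by
        intro G₁ H₁ hsub hx'
        rw [← hq]
        exact Finset.card_lt_card ((Finset.ssubset_iff_of_subset hsub).2
          ⟨x, by simp [starDiff, hx1, hx2], hx'⟩)
      rcases le_total ((Kᶜ).filter fun w => G.1.Adj x w).card ((Kᶜ).filter fun w => G.1.Adj y w).card with h | h
      · obtain ⟨G', e, hK', hs⟩ := step f hf G K hv hxK hyK hxy hx1 hy2 hy1.ne h
        rw [e]
        refine ihq _ (dec G' H ?_ ?_) G' H rfl fun k hk w => (hK' k hk w).trans (hK k hk w)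
        · intro w hw
          simp only [starDiff, Finset.mem_filter, Finset.mem_univ, true_and, hs] at hw ⊢
          rcases eq_or_ne w x with rfl | hwx
          · simp [hx1, hx2]
          rcases eq_or_ne w y with rfl | hwy
          · simp [hy1, hy2]
          simpa [hwx, hwy] using hw
        · simp [starDiff, hs, hxy, hx2]
      · obtain ⟨H', e, hK', hs⟩ := step f hf H K hv hyK hxK hxy.symm hy1 hx2 hx1.ne
          (by rw [← hres, ← hres]; exact h)
        rw [e]
        refine ihq _ (dec G H' ?_ ?_) G H' rfl fun k hk w => (hK k hk w).trans (hK' k hk w).symm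
        · intro w hw
          simp only [starDiff, Finset.mem_filter, Finset.mem_univ, true_and, hs] at hw ⊢
          rcases eq_or_ne w x with rfl | hwx
          · simp [hx1, hx2]
          rcases eq_or_ne w y with rfl | hwy
          · simp [hy1, hy2]
          simpa [hwx, hwy] using hw
        · simp [starDiff, hs, hx1]

/-- Switch connectivity: a switch-invariant function on `Omega d` is constant. -/
theorem const_of_switch_invariant {β : Type*} (f : Omega d → β) (hf : SwitchInvariant f)
    (G H : Omega d) : f G = f H :=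
  const_aux f hf _ ∅ rfl G H fun k hk => absurd hk (Finset.notMem_empty k)

/-- A function invariant under all switches `Graph.swp` is constant. -/
theorem Graph.const_of_swp_invariant {β : Type*} (f : Omega d → β)
    (hf : ∀ a b c e G, f (Graph.swp a b c e G) = f G) (G H : Omega d) : f G = f H := by
  refine const_of_switch_invariant f (fun G₁ H₁ a b j l hab haj hal hbj hbl hjl h1 h2 h3 h4 hH => ?_) G H
  have hS : Graph.Sw a b j l G₁ := by
    refine ⟨hab, haj, hal, hbj, hbl, hjl, ?_, ?_, ?_, ?_⟩ <;> simp [Graph.adj, h1, h2, h3, h4]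
  have e : H₁ = Graph.swp a b j l G₁ := by
    refine Graph.ext_adj fun u v => ?_
    rw [Graph.swp_adj hS, Bool.eq_iff_iff, Graph.adj_iff, hH]
    have h3' : ¬ G₁.1.Adj l a := fun h => h3 h.symm
    have h4' : ¬ G₁.1.Adj j b := fun h => h4 h.symm
    by_cases hc : Graph.cell a b j l u v
    · rw [if_pos hc]
      rcases hc with ⟨rfl | rfl, rfl | rfl⟩ | ⟨rfl | rfl, rfl | rfl⟩ <;>
        simp [Graph.adj, h1, h2, h3, h4, h3', h4', h1.symm, h2.symm, hab, haj, hal, hbj, hbl, hjl,
          hab.symm, haj.symm, hal.symm, hbj.symm, hbl.symm, hjl.symm]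
    · rw [if_neg hc, Graph.adj_iff]
      have e : ∀ p q : Fin n, (p = a ∨ p = b) → (q = j ∨ q = l) → ¬ s(u, v) = s(p, q) := by
        intro p q hp hq h
        refine hc ?_
        rcases Sym2.eq_iff.1 h with ⟨rfl, rfl⟩ | ⟨rfl, rfl⟩
        · exact Or.inl ⟨hp, hq⟩
        · exact Or.inr ⟨hp, hq⟩
      simp [e a j (Or.inl rfl) (Or.inl rfl), e b l (Or.inr rfl) (Or.inr rfl),
        e a l (Or.inl rfl) (Or.inr rfl), e b j (Or.inr rfl) (Or.inl rfl)]
  rw [e, hf]

end Vale.Agent.P335
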