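import Vale.Agent.P335.Avg

/-! Algebra of averaging operators used for a pair of disjoint trades. -/

namespace Vale.Agent.P335

open Finset

variable {Ω K J K' J' : Type*} [Fintype Ω] [DecidableEq K] [DecidableEq J] [DecidableEq K']
  [DecidableEq J']

lemma avg_coarse_fine {κ : Ω → K} {μ : Ω → J} (h : ∀ x y, μ x = μ y → κ x = κ y) (f : Ω → ℝ) :
    avg μ (avg κ f) = avg κ f :=
  avg_fixed fun x y hxy => avg_congr f (h y x hxy)

lemma ext_ip {f g : Ω → ℝ} (h : ∀ k, ip f k = ip g k) : f = g := by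
  have := h (f - g)
  rw [← sub_eq_zero, ← ip_sub_left, ip_self_eq_zero, sub_eq_zero] at this
  exact this

lemma avg_fine_coarse {κ : Ω → K} {μ : Ω → J} (h : ∀ x y, μ x = μ y → κ x = κ y) (f : Ω → ℝ) :
    avg κ (avg μ f) = avg κ f :=
  ext_ip fun k => by rw [avg_symm, avg_symm, avg_coarse_fine h, ← avg_symm]

lemma avg_comp_equiv {κ : Ω → K} (σ : Ω ≃ Ω) (h : ∀ x y, κ (σ y) = κ (σ x) ↔ κ y = κ x)
    (f : Ω → ℝ) : avg κ (f ∘ σ) = avg κ f ∘ σ := by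
  funext x
  have hs : ∀ F : Ω → ℝ, ∑ y ∈ fib κ (σ x), F y = ∑ y ∈ fib κ x, F (σ y) := by
    intro F
    refine (Finset.sum_nbij σ ?_ ?_ ?_ fun _ _ => rfl).symm
    · intro y hy; exact mem_fib.2 ((h x y).2 (mem_fib.1 hy))
    · exact fun _ _ _ _ e => σ.injective e
    · intro z hz
      refine ⟨σ.symm z, ?_, by simp⟩
      rw [Finset.mem_coe, mem_fib, ← h]
      simpa using mem_fib.1 (Finset.mem_coe.1 hz)
  have hc := hs (fun _ => 1)
  simp only [Finset.sum_const, nsmul_eq_mul, mul_one] at hc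
  simp only [avg_apply, Function.comp_apply, hs, hc]

lemma avg_mul_invariant {κ : Ω → K} {u : Ω → ℝ} (h : ∀ x y, κ y = κ x → u y = u x) (f : Ω → ℝ) :
    avg κ (u * f) = u * avg κ f := by
  funext x
  simp only [avg_apply, Pi.mul_apply]
  rw [Finset.sum_congr rfl (fun y hy => by rw [h x y (mem_fib.1 hy)]), ← Finset.mul_sum, mul_div_assoc]

lemma ip_split (κ : Ω → K) (g : Ω → ℝ) :
    ip g g = ip (dev κ g) (dev κ g) + ip (avg κ g) (avg κ g) := by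
  have h : ip (dev κ g) (avg κ g) = 0 := by
    rw [← avg_symm, dev_apply, map_sub, avg_idem, sub_self]; simp [ip]
  have h' := ip_comm (dev κ g) (avg κ g)
  simp only [dev_apply, ip_sub_left, ip_sub_right] at h h' ⊢
  linarith

lemma ip_avg_le (κ : Ω → K) (g : Ω → ℝ) : ip (avg κ g) (avg κ g) ≤ ip g g := by
  have := ip_split κ g
  have := ip_self_nonneg (dev κ g)
  linarith

lemma ip_proj_comm (P Q : (Ω → ℝ) →ₗ[ℝ] (Ω → ℝ)) (hP : ∀ f g, ip (P f) g = ip f (P g))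
    (hQ : ∀ f g, ip (Q f) g = ip f (Q g)) (hP2 : ∀ f, P (P f) = P f) (hQ2 : ∀ f, Q (Q f) = Q f)
    (hc : ∀ f, P (Q f) = Q (P f)) (f : Ω → ℝ) : ip (P f) (Q f) = ip (P (Q f)) (P (Q f)) := by
  symm
  rw [hP, hP2, hc, ← hQ, hQ2, ip_comm]

/-- The splitting of the inner product of two deviations: `o₁` refines `t₁`, `o₂` refines `t₂`. -/
lemma pair_split {t₁ : Ω → K} {o₁ : Ω → J} {t₂ : Ω → K'} {o₂ : Ω → J'}
    (h₁ : ∀ x y, o₁ x = o₁ y → t₁ x = t₁ y) (h₂ : ∀ x y, o₂ x = o₂ y → t₂ x = t₂ y)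
    (c00 : ∀ f, avg o₁ (avg o₂ f) = avg o₂ (avg o₁ f))
    (c01 : ∀ f, avg o₁ (avg t₂ f) = avg t₂ (avg o₁ f))
    (c10 : ∀ f, avg t₁ (avg o₂ f) = avg o₂ (avg t₁ f)) (f : Ω → ℝ) :
    ip (dev t₁ f) (dev t₂ f) =
      ip (dev o₁ (dev o₂ f)) (dev o₁ (dev o₂ f))
      + ip (dev o₁ (avg o₂ f - avg t₂ f)) (dev o₁ (avg o₂ f - avg t₂ f))
      + ip (dev o₂ (avg o₁ f - avg t₁ f)) (dev o₂ (avg o₁ f - avg t₁ f))
      + ip (avg o₁ (avg o₂ f) - avg t₁ (avg o₁ (avg o₂ f)))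
          (avg o₁ (avg o₂ f) - avg t₂ (avg o₁ (avg o₂ f))) := by
  set δ₁ := avg o₁ - avg t₁ with hδ₁
  set δ₂ := avg o₂ - avg t₂ with hδ₂
  have s₁ : ∀ a b, ip (δ₁ a) b = ip a (δ₁ b) := fun a b => by
    simp only [hδ₁, LinearMap.sub_apply, ip_sub_left, ip_sub_right, avg_symm]
  have s₂ : ∀ a b, ip (δ₂ a) b = ip a (δ₂ b) := fun a b => by
    simp only [hδ₂, LinearMap.sub_apply, ip_sub_left, ip_sub_right, avg_symm]
  have i₁ : ∀ a, δ₁ (δ₁ a) = δ₁ a := fun a => by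
    simp only [hδ₁, LinearMap.sub_apply, map_sub, avg_idem, avg_coarse_fine h₁, avg_fine_coarse h₁]
    abel
  have i₂ : ∀ a, δ₂ (δ₂ a) = δ₂ a := fun a => by
    simp only [hδ₂, LinearMap.sub_apply, map_sub, avg_idem, avg_coarse_fine h₂, avg_fine_coarse h₂]
    abel
  have cAB : ∀ a, dev o₁ (dev o₂ a) = dev o₂ (dev o₁ a) := fun a => by
    simp only [dev_apply, map_sub, c00]; abel
  have cA2 : ∀ a, dev o₁ (δ₂ a) = δ₂ (dev o₁ a) := fun a => by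
    simp only [dev_apply, hδ₂, LinearMap.sub_apply, map_sub, c00, c01]; abel
  have cB1 : ∀ a, dev o₂ (δ₁ a) = δ₁ (dev o₂ a) := fun a => by
    simp only [dev_apply, hδ₁, LinearMap.sub_apply, map_sub, c00, c10]; abel
  have e₁ : dev t₁ f = dev o₁ f + δ₁ f := by
    simp only [dev_apply, hδ₁, LinearMap.sub_apply]; abel
  have e₂ : dev t₂ f = dev o₂ f + δ₂ f := by
    simp only [dev_apply, hδ₂, LinearMap.sub_apply]; abel
  have q1 := ip_proj_comm (dev o₁) (dev o₂) (dev_symm _) (dev_symm _) (dev_idem _) (dev_idem _) cAB f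
  have q2 := ip_proj_comm (dev o₁) δ₂ (dev_symm _) s₂ (dev_idem _) i₂ cA2 f
  have q3 := ip_proj_comm (dev o₂) δ₁ (dev_symm _) s₁ (dev_idem _) i₁ cB1 f
  set F := avg o₁ (avg o₂ f) with hF
  have F1 : avg o₁ F = F := by rw [hF, avg_idem]
  have F2 : avg o₂ F = F := by rw [hF, c00, avg_idem]
  have q4 : ip (δ₁ f) (δ₂ f) = ip (δ₁ F) (δ₂ F) := by
    have a1 : δ₁ F = avg o₂ (δ₁ f) := by
      simp only [hF, hδ₁, LinearMap.sub_apply, map_sub, avg_idem, avg_fine_coarse h₁, c00, c10]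
    have a2 : δ₂ F = avg o₁ (δ₂ f) := by
      simp only [hF, hδ₂, LinearMap.sub_apply, map_sub, avg_idem, ← c01, c00]
      rw [← c00, ← c01, avg_fine_coarse h₂]
    have b1 : avg o₁ (δ₁ f) = δ₁ f := by
      simp only [hδ₁, LinearMap.sub_apply, map_sub, avg_idem, avg_coarse_fine h₁]
    have b2 : avg o₂ (δ₂ f) = δ₂ f := by
      simp only [hδ₂, LinearMap.sub_apply, map_sub, avg_idem, avg_coarse_fine h₂]
    rw [a1, a2, avg_symm, ← c00, b2, ← avg_symm, b1]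
  rw [e₁, e₂, ip_add_left, ip_comm (dev o₁ f), ip_comm (δ₁ f), ip_add_left, ip_add_left,
    ip_comm (dev o₂ f) (dev o₁ f), ip_comm (δ₂ f) (dev o₁ f), ip_comm (δ₂ f) (δ₁ f), q1, q2, q3, q4]
  simp only [hδ₁, hδ₂, LinearMap.sub_apply, F1, F2]
  ring

/-- Pythagoras for two commuting averages. -/
lemma ip_four {o₁ : Ω → K} {o₂ : Ω → J} (c00 : ∀ f, avg o₁ (avg o₂ f) = avg o₂ (avg o₁ f))
    (g : Ω → ℝ) :
    ip g g = ip (dev o₁ (dev o₂ g)) (dev o₁ (dev o₂ g)) + ip (dev o₁ (avg o₂ g)) (dev o₁ (avg o₂ g))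
      + ip (dev o₂ (avg o₁ g)) (dev o₂ (avg o₁ g))
      + ip (avg o₁ (avg o₂ g)) (avg o₁ (avg o₂ g)) := by
  have h : avg o₁ (dev o₂ g) = dev o₂ (avg o₁ g) := by simp only [dev_apply, map_sub, c00]
  rw [ip_split o₂ g, ip_split o₁ (dev o₂ g), ip_split o₁ (avg o₂ g), h]
  ring

lemma ip_sub_comp_le (σ : Ω ≃ Ω) (h : Ω → ℝ) : ip (h - h ∘ σ) (h - h ∘ σ) ≤ 4 * ip h h := by
  have e : ip (h ∘ σ) (h ∘ σ) = ip h h := σ.sum_comp (fun x => h x * h x)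
  have := ip_self_nonneg (h + h ∘ σ)
  simp only [ip_add_left, ip_sub_left, ip_sub_right] at this ⊢
  rw [ip_comm h (h + h ∘ σ), ip_comm (h ∘ σ) (h + h ∘ σ), ip_add_left, ip_add_left] at this
  have := ip_comm h (h ∘ σ)
  linarith

end Vale.Agent.P335
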