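import Vale.Agent.P335.General.Trade
import Vale.Agent.P335.General.PairAlg

/-! The lower bound for the inner product of two disjoint trades. -/

namespace Vale.Agent.P335.Graph

open Finset

variable {n : ℕ} {d : Fin n → ℕ}

/-- Four distinct vertices. -/
def Dist (a b c e : Fin n) : Prop := a ≠ b ∧ a ≠ c ∧ a ≠ e ∧ b ≠ c ∧ b ≠ e ∧ c ≠ e

lemma Dist.swap {a b c e : Fin n} (h : Dist a b c e) : Dist c e a b :=
  ⟨h.2.2.2.2.2, h.2.1.symm, h.2.2.2.1.symm, h.2.2.1.symm, h.2.2.2.2.1.symm, h.1⟩

/-- The key of the trade outside the four cross entries. -/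
noncomputable def okey (a b c e : Fin n) (G : Omega d) : (Fin n → Fin n → ℕ) × Bool × Bool :=
  (tkey a b G, adj G a c, adj G a e)

/-- The number of cross edges. -/
noncomputable def cnt (a b c e : Fin n) (G : Omega d) : ℕ :=
  (adj G a c).toNat + (adj G a e).toNat + (adj G b c).toNat + (adj G b e).toNat

/-- The trade key, refined on the states with two cross edges. -/
noncomputable def mkey (a b c e : Fin n) (G : Omega d) :
    (Fin n → Fin n → ℕ) × Option (Bool × Bool) :=
  (tkey a b G, if cnt a b c e G = 2 then some (adj G a c, adj G a e) else none)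

lemma cnt_swap (a b c e : Fin n) (G : Omega d) : cnt c e a b G = cnt a b c e G := by
  simp only [cnt, adj_comm' G c, adj_comm' G e]; omega

lemma tkey_cols {a b c e : Fin n} (h : Dist a b c e) {x y : Omega d}
    (hk : tkey a b y = tkey a b x) :
    (adj y a c).toNat + (adj y b c).toNat = (adj x a c).toNat + (adj x b c).toNat ∧
      (adj y a e).toNat + (adj y b e).toNat = (adj x a e).toNat + (adj x b e).toNat :=
  ⟨((tkey_eq_iff y x).1 hk).2.2 c h.2.1.symm h.2.2.2.1.symm,
    ((tkey_eq_iff y x).1 hk).2.2 e h.2.2.1.symm h.2.2.2.2.1.symm⟩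

lemma tkey_rows {a b c e : Fin n} (h : Dist a b c e) {x y : Omega d}
    (hk : tkey c e y = tkey c e x) :
    (adj y a c).toNat + (adj y a e).toNat = (adj x a c).toNat + (adj x a e).toNat ∧
      (adj y b c).toNat + (adj y b e).toNat = (adj x b c).toNat + (adj x b e).toNat := by
  have := tkey_cols h.swap hk
  simp only [adj_comm' y c, adj_comm' y e, adj_comm' x c, adj_comm' x e] at this
  exact this

lemma cnt_congr {a b c e : Fin n} (h : Dist a b c e) {x y : Omega d}
    (hk : tkey a b y = tkey a b x) : cnt a b c e y = cnt a b c e x := by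
  obtain ⟨h1, h2⟩ := tkey_cols h hk; simp only [cnt]; omega

lemma cross_of_okey {a b c e : Fin n} (h : Dist a b c e) {x y : Omega d}
    (hk : okey a b c e y = okey a b c e x) :
    adj y a c = adj x a c ∧ adj y a e = adj x a e ∧ adj y b c = adj x b c ∧ adj y b e = adj x b e := by
  simp only [okey, Prod.mk.injEq] at hk
  obtain ⟨h1, h2⟩ := tkey_cols h hk.1
  have inj : ∀ p q : Bool, p.toNat = q.toNat → p = q := by decide
  refine ⟨hk.2.1, hk.2.2, inj _ _ ?_, inj _ _ ?_⟩
  · rw [hk.2.1] at h1; omega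
  · rw [hk.2.2] at h2; omega

lemma eq_of_keys {a b c e : Fin n} (h : Dist a b c e) {x y : Omega d}
    (hp : tkey a b x = tkey a b y) (hq : tkey c e x = tkey c e y)
    (hcross : adj x a c = adj y a c ∧ adj x a e = adj y a e ∧ adj x b c = adj y b c ∧
      adj x b e = adj y b e) : x = y := by
  rw [tkey_eq_iff] at hp hq
  obtain ⟨k1, k2, k3, k4⟩ := hcross
  refine ext_adj fun u v => ?_
  by_cases hu : u = a ∨ u = b <;> by_cases hv : v = a ∨ v = b
  · rcases hu with rfl | rfl <;> rcases hv with rfl | rfl <;>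
      first
        | simp only [adj_self]
        | exact hp.2.1
        | (rw [adj_comm' x, adj_comm' y]; exact hp.2.1)
  · by_cases hv' : v = c ∨ v = e
    · rcases hu with rfl | rfl <;> rcases hv' with rfl | rfl <;> assumption
    · push Not at hv'
      rcases hu with rfl | rfl
      · exact hq.1 _ _ h.2.1 h.2.2.1 hv'.1 hv'.2
      · exact hq.1 _ _ h.2.2.2.1 h.2.2.2.2.1 hv'.1 hv'.2
  · by_cases hu' : u = c ∨ u = e
    · rw [adj_comm' x, adj_comm' y]
      rcases hv with rfl | rfl <;> rcases hu' with rfl | rfl <;> assumption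
    · push Not at hu'
      rcases hv with rfl | rfl
      · exact hq.1 _ _ hu'.1 hu'.2 h.2.1 h.2.2.1
      · exact hq.1 _ _ hu'.1 hu'.2 h.2.2.2.1 h.2.2.2.2.1
  · push Not at hu hv
    exact hp.1 u v hu.1 hu.2 hv.1 hv.2

/-- Take the entries of `a, b` at outer vertices from `x`, the cross entries from `w`, the rest
from `z`. -/
lemma exists_between {a b c e : Fin n} (h : Dist a b c e) {x y z : Omega d}
    (hxy : tkey a b y = tkey a b x) (hyz : tkey c e z = tkey c e y) (w₁ w₂ w₃ w₄ : Bool)
    (r1 : w₁.toNat + w₂.toNat = (adj x a c).toNat + (adj x a e).toNat)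
    (r2 : w₃.toNat + w₄.toNat = (adj x b c).toNat + (adj x b e).toNat)
    (c1 : w₁.toNat + w₃.toNat = (adj z a c).toNat + (adj z b c).toNat)
    (c2 : w₂.toNat + w₄.toNat = (adj z a e).toNat + (adj z b e).toNat) :
    ∃ u : Omega d, tkey c e u = tkey c e x ∧ tkey a b u = tkey a b z ∧
      adj u a c = w₁ ∧ adj u a e = w₂ ∧ adj u b c = w₃ ∧ adj u b e = w₄ := by
  obtain ⟨hab, hac, hae, hbc, hbe, hce⟩ := h
  rw [tkey_eq_iff] at hxy hyz
  have zab : adj z a b = adj x a b := (hyz.1 a b hac hae hbc hbe).trans hxy.2.1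
  have zout : ∀ v, v ≠ a → v ≠ b → v ≠ c → v ≠ e →
      (adj z a v).toNat + (adj z b v).toNat = (adj x a v).toNat + (adj x b v).toNat := by
    intro v va vb vc ve
    rw [hyz.1 a v hac hae vc ve, hyz.1 b v hbc hbe vc ve]
    exact hxy.2.2 v va vb
  obtain ⟨R, hR⟩ : ∃ R : Fin n → Fin n → Bool, R = fun p q =>
      if q = c then (if p = a then w₁ else w₃) else if q = e then (if p = a then w₂ else w₄)
      else adj x p q := ⟨_, rfl⟩
  obtain ⟨M, hM⟩ : ∃ M : Fin n → Fin n → Bool, M = fun p q =>
      if (p = a ∨ p = b) ∧ q ≠ a ∧ q ≠ b then R p q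
      else if (q = a ∨ q = b) ∧ p ≠ a ∧ p ≠ b then R q p else adj z p q := ⟨_, rfl⟩
  have hs : ∀ p q, M p q = M q p := by
    intro p q; subst hM
    have hz := adj_comm' z p q
    by_cases hp : p = a ∨ p = b <;> by_cases hq : q = a ∨ q = b
    · have e1 : ¬ (q ≠ a ∧ q ≠ b) := fun x => hq.elim x.1 x.2
      have e2 : ¬ (p ≠ a ∧ p ≠ b) := fun x => hp.elim x.1 x.2
      simp only [hp, hq, e1, e2, and_false, if_false, hz]
    · push Not at hq; simp [hp, hq.1, hq.2, hz]
    · push Not at hp; simp [hq, hp.1, hp.2, hz]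
    · push Not at hp hq; simp [hp.1, hp.2, hq.1, hq.2, hz]
  have h0 : ∀ p, M p p = false := by
    intro p; subst hM
    by_cases hp : p = a ∨ p = b
    · rcases hp with rfl | rfl <;> simp [adj_self]
    · push Not at hp; simp [hp.1, hp.2, adj_self]
  have Mab : ∀ v, v ≠ a → v ≠ b → v ≠ c → v ≠ e → M a v = adj x a v ∧ M b v = adj x b v := by
    intro v va vb vc ve; subst hM hR; simp [va, vb, vc, ve]
  have Mw : M a c = w₁ ∧ M a e = w₂ ∧ M b c = w₃ ∧ M b e = w₄ := by
    subst hM hR
    simp [hac.symm, hae.symm, hbc.symm, hbe.symm, hab.symm, hce.symm]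
  have Mz : ∀ p q, p ≠ a → p ≠ b → q ≠ a → q ≠ b → M p q = adj z p q := by
    intro p q pa pb qa qb; subst hM; simp [pa, pb, qa, qb]
  have Mab' : M a b = adj x a b := by
    subst hM; simp [zab]
  have hrow : ∀ p, ∑ q, (M p q).toNat = d p := by
    intro p
    have two : ∀ (P Q : Fin n) (G : Omega d), P ≠ Q →
        (∀ q, q ≠ P → q ≠ Q → M p q = adj G p q) →
        (M p P).toNat + (M p Q).toNat = (adj G p P).toNat + (adj G p Q).toNat →
        ∑ q, (M p q).toNat = d p := by
      intro P Q G hne hout hin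
      rw [← adj_sum G p, ← Finset.sum_add_sum_compl {P, Q},
        ← Finset.sum_add_sum_compl {P, Q} (fun q => (adj G p q).toNat)]
      congr 1
      · rw [Finset.sum_pair hne, Finset.sum_pair hne, hin]
      · refine Finset.sum_congr rfl fun q hq => ?_
        simp at hq; rw [hout q hq.1 hq.2]
    rcases eq_or_ne p a with hpa | hpa
    · rw [hpa] at two ⊢
      refine two c e x hce (fun q qc qe => ?_) (by rw [Mw.1, Mw.2.1, r1])
      rcases eq_or_ne q a with rfl | qa
      · rw [h0, adj_self]
      rcases eq_or_ne q b with rfl | qb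
      · exact Mab'
      exact (Mab q qa qb qc qe).1
    rcases eq_or_ne p b with hpb | hpb
    · rw [hpb] at two ⊢
      refine two c e x hce (fun q qc qe => ?_) (by rw [Mw.2.2.1, Mw.2.2.2, r2])
      rcases eq_or_ne q b with rfl | qb
      · rw [h0, adj_self]
      rcases eq_or_ne q a with rfl | qa
      · rw [hs, Mab', adj_comm']
      exact (Mab q qa qb qc qe).2
    refine two a b z hab (fun q qa qb => Mz p q hpa hpb qa qb) ?_
    rw [hs p a, hs p b, adj_comm' z p a, adj_comm' z p b]
    rcases eq_or_ne p c with rfl | hpc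
    · rw [Mw.1, Mw.2.2.1, c1]
    rcases eq_or_ne p e with rfl | hpe
    · rw [Mw.2.1, Mw.2.2.2, c2]
    rw [(Mab p hpa hpb hpc hpe).1, (Mab p hpa hpb hpc hpe).2, zout p hpa hpb hpc hpe]
  refine ⟨mkO M hs h0 hrow, ?_, ?_, ?_⟩
  · rw [tkey_eq_iff]
    simp only [adj_mkO]
    refine ⟨fun p q pc pe qc qe => ?_, ?_, fun v vc ve => ?_⟩
    · by_cases hp : p = a ∨ p = b <;> by_cases hq : q = a ∨ q = b
      · have e1 : M b a = adj x b a := by rw [hs b a, Mab', adj_comm']
        rcases hp with rfl | rfl <;> rcases hq with rfl | rfl <;>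
          simp [h0, adj_self, Mab', e1]
      · push Not at hq
        rcases hp with rfl | rfl
        · exact (Mab q hq.1 hq.2 qc qe).1
        · exact (Mab q hq.1 hq.2 qc qe).2
      · push Not at hp
        rw [hs, adj_comm']
        rcases hq with rfl | rfl
        · exact (Mab p hp.1 hp.2 pc pe).1
        · exact (Mab p hp.1 hp.2 pc pe).2
      · push Not at hp hq
        rw [Mz p q hp.1 hp.2 hq.1 hq.2, hyz.1 p q pc pe qc qe, hxy.1 p q hp.1 hp.2 hq.1 hq.2]
    · rw [Mz c e hac.symm hbc.symm hae.symm hbe.symm, hyz.2.1,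
        hxy.1 c e hac.symm hbc.symm hae.symm hbe.symm]
    · rcases eq_or_ne v a with rfl | va
      · rw [hs c, hs e, Mw.1, Mw.2.1, adj_comm' x c, adj_comm' x e, r1]
      rcases eq_or_ne v b with rfl | vb
      · rw [hs c, hs e, Mw.2.2.1, Mw.2.2.2, adj_comm' x c, adj_comm' x e, r2]
      rw [Mz c v hac.symm hbc.symm va vb, Mz e v hae.symm hbe.symm va vb, hyz.2.2 v vc ve,
        hxy.1 c v hac.symm hbc.symm va vb, hxy.1 e v hae.symm hbe.symm va vb]
  · rw [tkey_eq_iff]
    simp only [adj_mkO]
    refine ⟨fun p q pa pb qa qb => Mz p q pa pb qa qb, by rw [Mab', zab], fun v va vb => ?_⟩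
    rcases eq_or_ne v c with rfl | vc
    · rw [Mw.1, Mw.2.2.1, c1]
    rcases eq_or_ne v e with rfl | ve
    · rw [Mw.2.1, Mw.2.2.2, c2]
    rw [(Mab v va vb vc ve).1, (Mab v va vb vc ve).2, zout v va vb vc ve]
  · simpa using Mw

lemma comm_okey_tkey {a b c e : Fin n} (h : Dist a b c e) (f : Omega d → ℝ) :
    avg (okey a b c e) (avg (tkey c e) f) = avg (tkey c e) (avg (okey a b c e) f) := by
  refine avg_comm_of_exchange (fun x y hp hq => ?_) (fun x y z hxy hyz => ?_) f
  · exact eq_of_keys h (congrArg Prod.fst hp) hq (cross_of_okey h hp)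
  · obtain ⟨k1, k2, k3, k4⟩ := cross_of_okey h hxy
    obtain ⟨m1, m2⟩ := tkey_rows h hyz
    rw [k1, k2] at m1; rw [k3, k4] at m2
    obtain ⟨u, u1, u2, u3, u4, -⟩ :=
      exists_between h (congrArg Prod.fst hxy) hyz _ _ _ _ m1 m2 rfl rfl
    exact ⟨u, u1, Prod.ext u2 (Prod.ext u3 u4)⟩

lemma comm_okey_okey {a b c e : Fin n} (h : Dist a b c e) (f : Omega d → ℝ) :
    avg (okey a b c e) (avg (okey c e a b) f) = avg (okey c e a b) (avg (okey a b c e) f) := by
  refine avg_comm_of_exchange (fun x y hp hq => ?_) (fun x y z hxy hyz => ?_) f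
  · exact eq_of_keys h (congrArg Prod.fst hp) (congrArg Prod.fst hq) (cross_of_okey h hp)
  · obtain ⟨k1, k2, k3, k4⟩ := cross_of_okey h hxy
    obtain ⟨l1, l2, l3, l4⟩ := cross_of_okey h.swap hyz
    obtain ⟨m1, m2⟩ := tkey_rows h (congrArg Prod.fst hyz)
    rw [k1, k2] at m1; rw [k3, k4] at m2
    obtain ⟨u, u1, u2, u3, u4, u5, u6⟩ :=
      exists_between h (congrArg Prod.fst hxy) (congrArg Prod.fst hyz) _ _ _ _ m1 m2 rfl rfl
    refine ⟨u, Prod.ext u1 (Prod.ext ?_ ?_), Prod.ext u2 (Prod.ext u3 u4)⟩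
    · show adj u c a = adj x c a
      rw [adj_comm' u c a, u3, adj_comm' z a c, l1, adj_comm' y c a, k1, adj_comm']
    · show adj u c b = adj x c b
      rw [adj_comm' u c b, u5, adj_comm' z b c, l2, adj_comm' y c b, k3, adj_comm']

lemma comm_mkey {a b c e : Fin n} (h : Dist a b c e) (f : Omega d → ℝ) :
    avg (mkey a b c e) (avg (mkey c e a b) f) = avg (mkey c e a b) (avg (mkey a b c e) f) := by
  have key : ∀ p₁ p₂ p₃ p₄ q₁ q₂ q₃ q₄ : Bool,
      p₁.toNat + p₂.toNat + p₃.toNat + p₄.toNat = q₁.toNat + q₂.toNat + q₃.toNat + q₄.toNat →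
      p₁.toNat + p₂.toNat + p₃.toNat + p₄.toNat ≠ 2 →
      (∃ w₁ w₂ w₃ w₄ : Bool, w₁.toNat + w₂.toNat = p₁.toNat + p₂.toNat ∧
        w₃.toNat + w₄.toNat = p₃.toNat + p₄.toNat ∧ w₁.toNat + w₃.toNat = q₁.toNat + q₃.toNat ∧
        w₂.toNat + w₄.toNat = q₂.toNat + q₄.toNat) ∧
      (p₁.toNat + p₂.toNat = q₁.toNat + q₂.toNat → p₁.toNat + p₃.toNat = q₁.toNat + q₃.toNat →
        p₁ = q₁ ∧ p₂ = q₂ ∧ p₃ = q₃ ∧ p₄ = q₄) := by decide
  have ok : ∀ {x y : Omega d}, mkey a b c e y = mkey a b c e x → cnt a b c e x = 2 →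
      okey a b c e y = okey a b c e x := by
    intro x y hk hc
    have h1 := congrArg Prod.fst hk
    have hc' : cnt a b c e y = 2 := (cnt_congr h h1).trans hc
    have h2 : adj y a c = adj x a c ∧ adj y a e = adj x a e := by
      simpa [mkey, hc, hc'] using congrArg Prod.snd hk
    exact Prod.ext h1 (Prod.ext h2.1 h2.2)
  refine avg_comm_of_exchange (fun x y hp hq => ?_) (fun x y z hxy hyz => ?_) f
  · refine eq_of_keys h (congrArg Prod.fst hp) (congrArg Prod.fst hq) ?_
    have hc := cnt_congr h (congrArg Prod.fst hp)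
    by_cases h2 : cnt a b c e y = 2
    · exact cross_of_okey h (ok hp h2)
    · have c1 := (tkey_cols h (congrArg Prod.fst hp)).1
      have r1 := (tkey_rows h (congrArg Prod.fst hq)).1
      exact (key _ _ _ _ _ _ _ _ hc (hc.trans_ne h2)).2 r1 c1
  · have hxy' := congrArg Prod.fst hxy
    have hyz' := congrArg Prod.fst hyz
    have hc1 : cnt a b c e y = cnt a b c e x := cnt_congr h hxy'
    have hc2 : cnt a b c e z = cnt a b c e y := by
      rw [← cnt_swap, ← cnt_swap a b c e y]; exact cnt_congr h.swap hyz'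
    by_cases h2 : cnt a b c e x = 2
    · obtain ⟨k1, k2, k3, k4⟩ := cross_of_okey h (ok hxy h2)
      have hqy : cnt c e a b y = 2 := by rw [cnt_swap, hc1, h2]
      have hqz : cnt c e a b z = 2 := by rw [cnt_swap, hc2, hc1, h2]
      have hl : adj z c a = adj y c a ∧ adj z c b = adj y c b := by
        simpa [mkey, hqy, hqz] using congrArg Prod.snd hyz
      obtain ⟨m1, m2⟩ := tkey_rows h hyz'
      rw [k1, k2] at m1; rw [k3, k4] at m2
      obtain ⟨u, u1, u2, u3, u4, u5, u6⟩ := exists_between h hxy' hyz' _ _ _ _ m1 m2 rfl rfl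
      have hu : cnt a b c e u = cnt a b c e z := by simp [cnt, u3, u4, u5, u6]
      have hu2 : cnt a b c e u = 2 := by omega
      have hz2 : cnt a b c e z = 2 := by omega
      refine ⟨u, ?_, ?_⟩
      · refine Prod.ext u1 ?_
        simp only [mkey, cnt_swap a b c e, hu2, h2, if_true, Option.some.injEq, Prod.mk.injEq]
        constructor
        · rw [adj_comm' u c a, u3, adj_comm' z a c, hl.1, adj_comm' y c a, k1, adj_comm']
        · rw [adj_comm' u c b, u5, adj_comm' z b c, hl.2, adj_comm' y c b, k3, adj_comm']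
      · refine Prod.ext u2 ?_
        simp [mkey, hu2, hz2, u3, u4]
    · obtain ⟨⟨w₁, w₂, w₃, w₄, r1, r2, s1, s2⟩, -⟩ :=
        key (adj x a c) (adj x a e) (adj x b c) (adj x b e) (adj z a c) (adj z a e) (adj z b c)
          (adj z b e) (by simp only [cnt] at hc1 hc2; omega) h2
      obtain ⟨u, u1, u2, u3, u4, u5, u6⟩ := exists_between h hxy' hyz' w₁ w₂ w₃ w₄ r1 r2 s1 s2
      have hu : cnt a b c e u = cnt a b c e x := by simp only [cnt, u3, u4, u5, u6]; omega
      have hu2 : cnt a b c e u ≠ 2 := by omega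
      have hz2 : cnt a b c e z ≠ 2 := by omega
      refine ⟨u, Prod.ext u1 ?_, Prod.ext u2 ?_⟩
      · simp [mkey, cnt_swap a b c e, hu2, h2]
      · simp [mkey, hu2, hz2]

lemma cell_swap (a b c e u v : Fin n) : cell c e a b u v ↔ cell a b c e u v := by
  unfold cell; tauto

lemma cell_flip (a b c e u v : Fin n) : cell a b e c u v ↔ cell a b c e u v := by
  unfold cell; tauto

lemma Sw_swap (a b c e : Fin n) (G : Omega d) : Sw c e a b G ↔ Sw a b c e G := by
  unfold Sw
  rw [adj_comm' G c a, adj_comm' G e b, adj_comm' G c b, adj_comm' G e a]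
  constructor <;> rintro ⟨h1, h2, h3, h4, h5, h6, h7, h8, h9, h10⟩
  · exact ⟨h6, h2.symm, h4.symm, h3.symm, h5.symm, h1, h7, h8, h10, h9⟩
  · exact ⟨h6, h2.symm, h4.symm, h3.symm, h5.symm, h1, h7, h8, h10, h9⟩

lemma Sw_flip (a b c e : Fin n) (G : Omega d) :
    Sw b a e c G ↔ Sw a b c e G := by
  unfold Sw
  constructor <;> rintro ⟨h1, h2, h3, h4, h5, h6, h7, h8, h9, h10⟩
  · exact ⟨h1.symm, h5, h4, h3, h2, h6.symm, h8, h7, h10, h9⟩
  · exact ⟨h1.symm, h5, h4, h3, h2, h6.symm, h8, h7, h10, h9⟩

lemma swp_swap (a b c e : Fin n) (G : Omega d) : swp c e a b G = swp a b c e G := by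
  by_cases h : Sw a b c e G
  · refine ext_adj fun u v => ?_
    rw [swp_adj h, swp_adj ((Sw_swap a b c e G).2 h)]
    simp only [cell_swap]
  · rw [swp_of_not h, swp_of_not (mt (Sw_swap a b c e G).1 h)]

lemma swp_flip (a b c e : Fin n) (G : Omega d) : swp b a e c G = swp a b c e G := by
  by_cases h : Sw a b c e G
  · refine ext_adj fun u v => ?_
    rw [swp_adj h, swp_adj ((Sw_flip a b c e G).2 h)]
    have : cell b a e c u v ↔ cell a b c e u v := by unfold cell; tauto
    simp only [this]
  · rw [swp_of_not h, swp_of_not (mt (Sw_flip a b c e G).1 h)]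

lemma sd_swap (f : Omega d → ℝ) (a b c e : Fin n) : sd f c e a b = sd f a b c e := by
  simp only [sd, swp_swap]

lemma sd_flip (f : Omega d → ℝ) (a b c e : Fin n) : sd f b a e c = sd f a b c e := by
  simp only [sd, swp_flip]

lemma Sep_swap (a b c e : Fin n) (G : Omega d) : Sep c e a b G ↔ Sep a b c e G := by
  have : Sw c e b a G ↔ Sw a b e c G := by rw [Sw_swap b a c e G, Sw_flip]
  simp only [Sep, Sw_swap a b c e G, this]

lemma not_both {a b c e : Fin n} {G : Omega d} (h : Sw a b c e G) : ¬ Sw a b e c G := by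
  rintro ⟨-, -, -, -, -, -, h1, -⟩
  obtain ⟨-, -, -, -, -, -, -, -, h3, -⟩ := h
  rw [h1] at h3; exact Bool.noConfusion h3

lemma Sw_swp {a b c e : Fin n} {G : Omega d} (h : Sw a b c e G) :
    Sw a b e c (swp a b c e G) := by
  have hh := swp_adj h
  obtain ⟨hab, hac, hae, hbc, hbe, hce, h1, h2, h3, h4⟩ := h
  exact ⟨hab, hae, hac, hbe, hbc, hce.symm, by simp [hh, cell, h3], by simp [hh, cell, h4],
    by simp [hh, cell, h1], by simp [hh, cell, h2]⟩

lemma swp_swp {a b c e : Fin n} {G : Omega d} (h : Sw a b c e G) :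
    swp a b e c (swp a b c e G) = G := by
  refine ext_adj fun u v => ?_
  rw [swp_adj (Sw_swp h), swp_adj h]
  simp only [cell_flip]
  split_ifs <;> simp

/-- Exchange the two patterns in which `c` and `e` are separated. -/
noncomputable def flipSep (a b c e : Fin n) (G : Omega d) : Omega d :=
  if Sw a b c e G then swp a b c e G else swp a b e c G

lemma flipSep_flipSep (a b c e : Fin n) (G : Omega d) :
    flipSep a b c e (flipSep a b c e G) = G := by
  unfold flipSep
  by_cases h : Sw a b c e G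
  · rw [if_pos h, if_neg, swp_swp h]
    exact not_both (Sw_swp h)
  · rw [if_neg h]
    by_cases h' : Sw a b e c G
    · rw [if_pos (Sw_swp h'), swp_swp h']
    · rw [swp_of_not h', if_neg h, swp_of_not h']

/-- `flipSep` as a permutation. -/
noncomputable def flipEquiv (a b c e : Fin n) : Omega d ≃ Omega d :=
  ⟨flipSep a b c e, flipSep a b c e, flipSep_flipSep a b c e, flipSep_flipSep a b c e⟩

lemma flipSep_adj (a b c e : Fin n) (G : Omega d) (u v : Fin n) :
    adj (flipSep a b c e G) u v =
      if Sep a b c e G ∧ cell a b c e u v then !adj G u v else adj G u v := by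
  unfold flipSep
  by_cases h : Sw a b c e G
  · rw [if_pos h, swp_adj h]; simp [Sep, h]
  · rw [if_neg h]
    by_cases h' : Sw a b e c G
    · rw [swp_adj h']; simp [Sep, h', cell_flip]
    · rw [swp_of_not h']; simp [Sep, h, h']

lemma Sep_congr {a b c e : Fin n} {G H : Omega d} (h1 : adj H a c = adj G a c)
    (h2 : adj H a e = adj G a e) (h3 : adj H b c = adj G b c) (h4 : adj H b e = adj G b e) :
    Sep a b c e H ↔ Sep a b c e G := by simp only [Sep, Sw, h1, h2, h3, h4]

lemma Sep_flipSep (a b c e : Fin n) (G : Omega d) :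
    Sep a b c e (flipSep a b c e G) ↔ Sep a b c e G := by
  unfold flipSep
  by_cases h : Sw a b c e G
  · rw [if_pos h]; simp [Sep, h, Sw_swp h]
  · rw [if_neg h]
    by_cases h' : Sw a b e c G
    · simp [Sep, h', Sw_swp h']
    · rw [swp_of_not h']

lemma tkey_flipSep (a b c e : Fin n) (G : Omega d) :
    tkey a b (flipSep a b c e G) = tkey a b G := by
  unfold flipSep; split_ifs <;> exact swp_tkey _ _ _ _ _

lemma flipSep_swap (a b c e : Fin n) (G : Omega d) :
    flipSep c e a b G = flipSep a b c e G := by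
  refine ext_adj fun u v => ?_
  simp only [flipSep_adj, Sep_swap, cell_swap]

lemma okey_flipSep_of {a b c e : Fin n} (h : Dist a b c e) {G H : Omega d}
    (hk : okey a b c e H = okey a b c e G) :
    okey a b c e (flipSep a b c e H) = okey a b c e (flipSep a b c e G) := by
  obtain ⟨k1, k2, k3, k4⟩ := cross_of_okey h hk
  have hS := Sep_congr k1 k2 k3 k4
  refine Prod.ext ?_ (Prod.ext ?_ ?_)
  · show tkey a b _ = tkey a b _
    rw [tkey_flipSep, tkey_flipSep]; exact congrArg Prod.fst hk
  · show adj _ a c = adj _ a c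
    rw [flipSep_adj, flipSep_adj, k1]; simp only [hS]
  · show adj _ a e = adj _ a e
    rw [flipSep_adj, flipSep_adj, k2]; simp only [hS]

lemma okey_flip_iff {a b c e : Fin n} (h : Dist a b c e) (G H : Omega d) :
    okey a b c e (flipEquiv a b c e H) = okey a b c e (flipEquiv a b c e G) ↔
      okey a b c e H = okey a b c e G := by
  refine ⟨fun hk => ?_, okey_flipSep_of h⟩
  have := okey_flipSep_of h hk
  simpa [flipEquiv, flipSep_flipSep] using this

lemma flipEquiv_swap (a b c e : Fin n) :
    (flipEquiv c e a b : Omega d ≃ Omega d) = flipEquiv a b c e :=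
  Equiv.ext fun G => flipSep_swap a b c e G

lemma flip_of_not_Sep {a b c e : Fin n} {G : Omega d} (h : ¬ Sep a b c e G) :
    flipSep a b c e G = G := by
  refine ext_adj fun u v => ?_
  rw [flipSep_adj, if_neg (fun x => h x.1)]

/-- On the separated states, averaging `f` and its flip over the outer trade is conditioning on
separation; with Jensen this bounds the bias of the joint average. -/
lemma bias_le {a b c e : Fin n} (h : Dist a b c e) (f : Omega d → ℝ) :
    (∑ G, if Sep a b c e G then
      ((avg (okey a b c e) (avg (okey c e a b) f) G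
          + avg (okey a b c e) (avg (okey c e a b) f) (flipSep a b c e G)) / 2
        - avg (tkey a b) (avg (okey a b c e) (avg (okey c e a b) f)) G) ^ 2 else 0)
      ≤ negp f a b c e := by
  set σ : Omega d ≃ Omega d := flipEquiv a b c e
  set op := okey (d := d) a b c e
  set oq := okey (d := d) c e a b
  set tp := tkey (d := d) a b
  set ind : Omega d → ℝ := fun G => if Sep a b c e G then 1 else 0 with hind
  set fb : Omega d → ℝ := (1 / 2 : ℝ) • (f + f ∘ σ) with hfb
  have ref : ∀ x y, op x = op y → tp x = tp y := fun x y hk => congrArg Prod.fst hk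
  have eqv : ∀ x y, op (σ y) = op (σ x) ↔ op y = op x := fun x y => okey_flip_iff h x y
  have eqv' : ∀ x y, oq (σ y) = oq (σ x) ↔ oq y = oq x := fun x y => by
    simp only [σ, ← flipEquiv_swap a b c e]; exact okey_flip_iff h.swap x y
  have hcomp : ∀ G, avg op fb G = (avg op f G + avg op f (σ G)) / 2 := by
    intro G
    rw [hfb, map_smul, map_add, avg_comp_equiv σ eqv]
    simp; ring
  have hsk : ∀ G, Sep a b c e G → avg op fb G = avg (skey a b c e) f G := by
    intro G hG
    have rsk : ∀ x y, op x = op y → skey a b c e x = skey a b c e y := by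
      intro x y hk
      obtain ⟨k1, k2, k3, k4⟩ := cross_of_okey h hk
      exact Prod.ext (congrArg Prod.fst hk :) (decide_eq_decide.2 (Sep_congr k1 k2 k3 k4))
    have hinv : ∀ x, skey a b c e (σ x) = skey a b c e x := fun x =>
      Prod.ext (tkey_flipSep a b c e x) (decide_eq_decide.2 (Sep_flipSep a b c e x))
    have e1 : avg (skey a b c e) fb = avg (skey a b c e) f := by
      rw [hfb, map_smul, map_add, avg_comp_equiv σ (fun x y => by rw [hinv, hinv])]
      funext x
      simp [avg_congr f (hinv x)]; ring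
    rw [← e1, ← avg_fine_coarse rsk fb, avg_apply (skey a b c e)]
    have hconst : ∀ H ∈ fib (skey a b c e) G, avg op fb H = avg op fb G := by
      intro H hH
      have hH' := mem_fib.1 hH
      have ht : tkey a b H = tkey a b G := congrArg Prod.fst hH'
      have hS : Sep a b c e H := (decide_eq_decide.1 (congrArg Prod.snd hH')).2 hG
      rcases hG with hG | hG <;> rcases hS with hS | hS
      · exact avg_congr fb (Prod.ext ht (Prod.ext (hS.2.2.2.2.2.2.1.trans hG.2.2.2.2.2.2.1.symm)
          (hS.2.2.2.2.2.2.2.2.1.trans hG.2.2.2.2.2.2.2.2.1.symm)))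
      · have hk : op H = op (σ G) := by
          refine Prod.ext (ht.trans (tkey_flipSep a b c e G).symm) ?_
          show (adj H a c, adj H a e) = (adj (flipSep a b c e G) a c, adj (flipSep a b c e G) a e)
          rw [flipSep, if_pos hG, swp_adj hG, swp_adj hG]
          simp [cell, hG.2.2.2.2.2.2.1, hG.2.2.2.2.2.2.2.2.1, hS.2.2.2.2.2.2.1, hS.2.2.2.2.2.2.2.2.1]
        rw [avg_congr fb hk, hcomp, hcomp]
        simp only [σ, flipEquiv, Equiv.coe_fn_mk, flipSep_flipSep]; ring
      · have hk : op H = op (σ G) := by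
          refine Prod.ext (ht.trans (tkey_flipSep a b c e G).symm) ?_
          show (adj H a c, adj H a e) = (adj (flipSep a b c e G) a c, adj (flipSep a b c e G) a e)
          rw [flipSep, if_neg (fun x => not_both x hG), swp_adj hG, swp_adj hG]
          simp [cell, hG.2.2.2.2.2.2.1, hG.2.2.2.2.2.2.2.2.1, hS.2.2.2.2.2.2.1, hS.2.2.2.2.2.2.2.2.1]
        rw [avg_congr fb hk, hcomp, hcomp]
        simp only [σ, flipEquiv, Equiv.coe_fn_mk, flipSep_flipSep]; ring
      · exact avg_congr fb (Prod.ext ht (Prod.ext (hS.2.2.2.2.2.2.2.2.1.trans hG.2.2.2.2.2.2.2.2.1.symm)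
          (hS.2.2.2.2.2.2.1.trans hG.2.2.2.2.2.2.1.symm)))
    rw [Finset.sum_congr rfl hconst, Finset.sum_const, nsmul_eq_mul,
      mul_div_cancel_left₀ _ (fib_card_pos _ G).ne']
  set u : Omega d → ℝ := ind * (avg op fb - avg tp f) with hu
  have hindq : ∀ x y, oq y = oq x → ind y = ind x := by
    intro x y hk
    obtain ⟨k1, k2, k3, k4⟩ := cross_of_okey h.swap hk
    simp only [hind, ← Sep_swap a b c e, Sep_congr k1 k2 k3 k4]
  have hgoal : avg oq u = fun G => if Sep a b c e G then
      ((avg op (avg oq f) G + avg op (avg oq f) (flipSep a b c e G)) / 2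
        - avg tp (avg op (avg oq f)) G) else 0 := by
    funext G
    rw [hu, avg_mul_invariant hindq, map_sub, Pi.mul_apply, Pi.sub_apply]
    have e1 : avg oq (avg op fb) = (1 / 2 : ℝ) • (avg op (avg oq f) + avg op (avg oq f) ∘ σ) := by
      simp only [hfb, map_smul, map_add]
      rw [avg_comp_equiv σ eqv, avg_comp_equiv σ eqv', ← comm_okey_okey h]
    have e2 : avg oq (avg tp f) = avg tp (avg op (avg oq f)) := by
      rw [avg_fine_coarse ref, comm_okey_tkey h.swap]
    rw [e1, e2]
    simp only [hind]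
    split_ifs <;> simp [σ, flipEquiv]; ring
  have hle := ip_avg_le oq u
  rw [hgoal] at hle
  refine le_trans (le_of_eq ?_) (hle.trans (le_of_eq ?_))
  · exact Finset.sum_congr rfl fun G _ => by split_ifs with hS <;> simp [sq, hS]
  · refine Finset.sum_congr rfl fun G _ => ?_
    simp only [hu, hind, Pi.mul_apply, Pi.sub_apply]
    split_ifs with hG
    · rw [one_mul, hsk G hG, sq]
    · simp

lemma fib_mkey {a b c e : Fin n} (h : Dist a b c e) (G : Omega d) :
    fib (mkey a b c e) G =
      if cnt a b c e G = 2 then fib (okey a b c e) G else fib (tkey a b) G := by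
  ext H
  split_ifs with h2 <;> simp only [mem_fib]
  · constructor
    · intro hk
      have h1 : tkey a b H = tkey a b G := congrArg Prod.fst hk
      have h3 : cnt a b c e H = 2 := (cnt_congr h h1).trans h2
      have h4 : adj H a c = adj G a c ∧ adj H a e = adj G a e := by
        simpa [mkey, h2, h3] using congrArg Prod.snd hk
      exact Prod.ext h1 (Prod.ext h4.1 h4.2)
    · intro hk
      obtain ⟨k1, k2, k3, k4⟩ := cross_of_okey h hk
      refine Prod.ext (congrArg Prod.fst hk :) ?_
      simp only [mkey, cnt, k1, k2, k3, k4]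
      rfl
  · refine ⟨fun hk => congrArg Prod.fst hk, fun hk => Prod.ext hk ?_⟩
    simp [mkey, cnt_congr h hk, h2]

lemma dev_mkey {a b c e : Fin n} (h : Dist a b c e) (F : Omega d → ℝ)
    (hF : ∀ x y, okey a b c e y = okey a b c e x → F y = F x) (G : Omega d) :
    dev (mkey a b c e) F G =
      if cnt a b c e G = 2 then 0 else F G - avg (tkey a b) F G := by
  rw [dev_apply, Pi.sub_apply, avg_apply (mkey a b c e), fib_mkey h]
  split_ifs
  · rw [← avg_apply, avg_fixed hF, sub_self]
  · rw [← avg_apply]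

lemma avg_tkey_of_cols {a b c e : Fin n} (h : Dist a b c e) (F : Omega d → ℝ)
    (hF : ∀ x y, okey a b c e y = okey a b c e x → F y = F x) (G : Omega d)
    (p : adj G a c = adj G b c) (p' : adj G a e = adj G b e) :
    avg (tkey a b) F G = F G := by
  have key : ∀ r s t : Bool, r.toNat + s.toNat = t.toNat + t.toNat → r = t := by decide
  have hf : fib (tkey a b) G = fib (okey a b c e) G := by
    ext H; simp only [mem_fib]
    refine ⟨fun hk => ?_, fun hk => congrArg Prod.fst hk⟩
    obtain ⟨c1, c2⟩ := tkey_cols h hk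
    rw [← p] at c1; rw [← p'] at c2
    exact Prod.ext hk (Prod.ext (key _ _ _ c1) (key _ _ _ c2))
  rw [avg_apply, hf, ← avg_apply, avg_fixed hF]

/-- The lower bound for a pair of disjoint trades. -/
theorem pair_ge {a b c e : Fin n} (h : a ≠ b ∧ a ≠ c ∧ a ≠ e ∧ b ≠ c ∧ b ≠ e ∧ c ≠ e)
    (f : Omega d → ℝ) :
    (sd f a b c e + sd f a b e c) / 2 - negp f a b c e - negp f c e a b
      ≤ 2 * ip (dev (tkey a b) f) (dev (tkey c e) f) := by
  have h : Dist a b c e := h
  set σ : Omega d ≃ Omega d := flipEquiv a b c e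
  set op := okey (d := d) a b c e
  set oq := okey (d := d) c e a b
  set tp := tkey (d := d) a b
  set tq := tkey (d := d) c e
  have ref₁ : ∀ x y, op x = op y → tp x = tp y := fun x y hk => congrArg Prod.fst hk
  have ref₂ : ∀ x y, oq x = oq y → tq x = tq y := fun x y hk => congrArg Prod.fst hk
  have c00 := comm_okey_okey (d := d) h
  have c01 := comm_okey_tkey (d := d) h
  have c10 : ∀ g, avg tp (avg oq g) = avg oq (avg tp g) := fun g =>
    (comm_okey_tkey h.swap g).symm
  have eqv : ∀ x y, op (σ y) = op (σ x) ↔ op y = op x := fun x y => okey_flip_iff h x y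
  have eqv' : ∀ x y, oq (σ y) = oq (σ x) ↔ oq y = oq x := fun x y => by
    simp only [σ, ← flipEquiv_swap a b c e]; exact okey_flip_iff h.swap x y
  have tpσ : ∀ g G, avg tp g (σ G) = avg tp g G := fun g G => avg_congr g (tkey_flipSep a b c e G)
  have tqσ : ∀ g G, avg tq g (σ G) = avg tq g G := fun g G => avg_congr g (by
    show tkey c e (flipSep a b c e G) = tkey c e G
    rw [← flipSep_swap]; exact tkey_flipSep c e a b G)
  rw [pair_split ref₁ ref₂ c00 c01 c10 f]
  set F := avg op (avg oq f) with hF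
  set dl : Omega d → ℝ := f - f ∘ σ with hdl
  have four := ip_four c00 dl
  have b1 : ip (dev op (dev oq dl)) (dev op (dev oq dl))
      ≤ 4 * ip (dev op (dev oq f)) (dev op (dev oq f)) := by
    refine le_trans (le_of_eq ?_) (ip_sub_comp_le σ _)
    have : dev op (dev oq dl) = dev op (dev oq f) - dev op (dev oq f) ∘ σ := by
      simp only [hdl, dev_apply, map_sub, avg_comp_equiv σ eqv, avg_comp_equiv σ eqv']
      funext G; simp; try ring
    rw [this]
  have b2 : ip (dev op (avg oq dl)) (dev op (avg oq dl))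
      ≤ 4 * ip (dev op (avg oq f - avg tq f)) (dev op (avg oq f - avg tq f)) := by
    refine le_trans (le_of_eq ?_) (ip_sub_comp_le σ _)
    have e : avg oq dl = (avg oq f - avg tq f) - (avg oq f - avg tq f) ∘ σ := by
      funext G; simp [hdl, map_sub, avg_comp_equiv σ eqv', tqσ]
    have : dev op (avg oq dl) =
        dev op (avg oq f - avg tq f) - dev op (avg oq f - avg tq f) ∘ σ := by
      rw [e]; simp only [dev_apply, map_sub, avg_comp_equiv σ eqv]
      funext G; simp; ring
    rw [this]
  have b3 : ip (dev oq (avg op dl)) (dev oq (avg op dl))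
      ≤ 4 * ip (dev oq (avg op f - avg tp f)) (dev oq (avg op f - avg tp f)) := by
    refine le_trans (le_of_eq ?_) (ip_sub_comp_le σ _)
    have e : avg op dl = (avg op f - avg tp f) - (avg op f - avg tp f) ∘ σ := by
      funext G; simp [hdl, map_sub, avg_comp_equiv σ eqv, tpσ]
    have : dev oq (avg op dl) =
        dev oq (avg op f - avg tp f) - dev oq (avg op f - avg tp f) ∘ σ := by
      rw [e]; simp only [dev_apply, map_sub, avg_comp_equiv σ eqv']
      funext G; simp; ring
    rw [this]
  have e4 : avg op (avg oq dl) = F - F ∘ σ := by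
    simp only [hdl, hF, map_sub, avg_comp_equiv σ eqv, avg_comp_equiv σ eqv']
  rw [e4] at four
  -- the part left over
  set m := avg tp F
  set q := avg tq F
  set mp := mkey (d := d) a b c e
  set mq := mkey (d := d) c e a b
  have F1 : ∀ x y, op y = op x → F y = F x := fun x y hk => avg_congr _ hk
  have F2 : ∀ x y, oq y = oq x → F y = F x := by
    intro x y hk; simp only [hF]; rw [c00 f]; exact avg_congr _ hk
  have mdev : ∀ G, dev mp F G = if cnt a b c e G = 2 then 0 else F G - m G := dev_mkey h F F1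
  have mdev' : ∀ G, dev mq F G = if cnt a b c e G = 2 then 0 else F G - q G := fun G => by
    rw [← cnt_swap a b c e G]; exact dev_mkey h.swap F F2 G
  have hdec : ∀ G, (F - m) G * (F - q) G =
      dev mp F G * dev mq F G + if Sep a b c e G then (F G - m G) * (F G - q G) else 0 := by
    intro G
    rw [mdev, mdev', Pi.sub_apply, Pi.sub_apply]
    by_cases h2 : cnt a b c e G = 2
    swap
    · have : ¬ Sep a b c e G := by
        rintro (hS | hS) <;> obtain ⟨-, -, -, -, -, -, e1, e2, e3, e4⟩ := hS <;>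
          exact h2 (by simp [cnt, e1, e2, e3, e4])
      simp [h2, this]
    simp only [h2, if_true, mul_zero, zero_add]
    split_ifs with hS
    · rfl
    -- the other four patterns: one of the two trades cannot touch the cross entries
    have hcases : ∀ p₁ p₂ p₃ p₄ : Bool, p₁.toNat + p₂.toNat + p₃.toNat + p₄.toNat = 2 →
        ¬ (p₁ = true ∧ p₄ = true ∧ p₂ = false ∧ p₃ = false) →
        ¬ (p₂ = true ∧ p₃ = true ∧ p₁ = false ∧ p₄ = false) →
        (p₁ = p₃ ∧ p₂ = p₄) ∨ (p₁ = p₂ ∧ p₃ = p₄) := by decide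
    rcases hcases _ _ _ _ h2
      (fun x => hS (Or.inl ⟨h.1, h.2.1, h.2.2.1, h.2.2.2.1, h.2.2.2.2.1, h.2.2.2.2.2, x⟩))
      (fun x => hS (Or.inr ⟨h.1, h.2.2.1, h.2.1, h.2.2.2.2.1, h.2.2.2.1, h.2.2.2.2.2.symm, x⟩))
      with ⟨p, p'⟩ | ⟨p, p'⟩
    · have : m G = F G := avg_tkey_of_cols h F F1 G p p'
      rw [this, sub_self, zero_mul]
    · have : q G = F G := avg_tkey_of_cols h.swap F F2 G
        (by rwa [adj_comm' G c a, adj_comm' G e a]) (by rwa [adj_comm' G c b, adj_comm' G e b])
      rw [this, sub_self, mul_zero]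
  have hcomm := ip_dev_dev_nonneg F (comm_mkey (d := d) h)
  have hsum : ip (F - m) (F - q) = ip (dev mp F) (dev mq F)
      + ∑ G, if Sep a b c e G then (F G - m G) * (F G - q G) else 0 := by
    simp only [ip, ← Finset.sum_add_distrib]
    exact Finset.sum_congr rfl fun G _ => hdec G
  have hsym : (∑ G, if Sep a b c e G then (F G - m G) * (F G - q G) else 0)
      = ∑ G, if Sep a b c e G then (F (σ G) - m G) * (F (σ G) - q G) else 0 := by
    rw [← σ.sum_comp]
    refine Finset.sum_congr rfl fun G _ => ?_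
    rw [show m (σ G) = m G from tpσ F G, show q (σ G) = q G from tqσ F G]
    exact if_congr (Sep_flipSep a b c e G) rfl rfl
  have hpt : ∀ G, (F - F ∘ σ) G * (F - F ∘ σ) G / 2 ≤
      (if Sep a b c e G then (F G - m G) * (F G - q G) else 0)
        + (if Sep a b c e G then (F (σ G) - m G) * (F (σ G) - q G) else 0)
        + (if Sep a b c e G then ((F G + F (σ G)) / 2 - m G) ^ 2 else 0)
        + (if Sep a b c e G then ((F G + F (σ G)) / 2 - q G) ^ 2 else 0) := by
    intro G
    split_ifs with hS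
    · simp only [Pi.sub_apply, Function.comp_apply]
      nlinarith [sq_nonneg ((F G + F (σ G)) / 2 - m G + ((F G + F (σ G)) / 2 - q G))]
    · simp [σ, flipEquiv, flip_of_not_Sep hS]
  have hpt' := Finset.sum_le_sum (s := (univ : Finset (Omega d))) fun G _ => hpt G
  rw [← Finset.sum_div] at hpt'
  change ip (F - F ∘ σ) (F - F ∘ σ) / 2 ≤ _ at hpt'
  simp only [Finset.sum_add_distrib, ← hsym] at hpt'
  have n1 : (∑ G, if Sep a b c e G then ((F G + F (σ G)) / 2 - m G) ^ 2 else 0)
      ≤ negp f a b c e := bias_le h f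
  have n2 : (∑ G, if Sep a b c e G then ((F G + F (σ G)) / 2 - q G) ^ 2 else 0)
      ≤ negp f c e a b := by
    refine le_trans (le_of_eq ?_) (bias_le h.swap f)
    refine Finset.sum_congr rfl fun G _ => ?_
    rw [← comm_okey_okey h, flipSep_swap]
    exact if_congr (Sep_swap a b c e G).symm rfl rfl
  have hdl2 : ip dl dl = sd f a b c e + sd f a b e c := by
    simp only [ip, sd, ← Finset.sum_add_distrib]
    refine Finset.sum_congr rfl fun G _ => ?_
    simp only [hdl, Pi.sub_apply, Function.comp_apply, σ, flipEquiv, Equiv.coe_fn_mk, flipSep]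
    split_ifs with hS
    · rw [swp_of_not (not_both hS)]; ring
    · rw [swp_of_not hS]; ring
  rw [hdl2] at four
  rw [hsum]
  linarith

end Vale.Agent.P335.Graph
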