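import Vale.Agent.P335.General.Fibre
import Vale.Agent.P335.General.Pair

/-! The disjoint pairs contribute nonnegatively to the square of the sum of all trades. -/

namespace Vale.Agent.P335.Graph

open Finset

variable {n : ℕ} {d : Fin n → ℕ}

theorem Dsum_nonneg (f : Omega d → ℝ) : 0 ≤ Dsum f := by
  set G : Fin n → Fin n → Fin n → Fin n → ℝ := fun a b c e =>
    if a ≠ b ∧ c ≠ e ∧ a ≠ c ∧ a ≠ e ∧ b ≠ c ∧ b ≠ e then
      ip (dev (tkey a b) f) (dev (tkey c e) f) else 0 with hG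
  have hterm : ∀ a b c e, (sd f a b c e + sd f a b e c) / 2 - negp f a b c e - negp f c e a b
      ≤ 2 * G a b c e := by
    intro a b c e
    by_cases h : a ≠ b ∧ c ≠ e ∧ a ≠ c ∧ a ≠ e ∧ b ≠ c ∧ b ≠ e
    · simp only [hG, if_pos h]
      exact pair_ge ⟨h.1, h.2.2.1, h.2.2.2.1, h.2.2.2.2.1, h.2.2.2.2.2, h.2.1⟩ f
    · have h1 : ∀ x : Omega d, ¬ Sw a b c e x := fun x hx =>
        h ⟨hx.1, hx.2.2.2.2.2.1, hx.2.1, hx.2.2.1, hx.2.2.2.1, hx.2.2.2.2.1⟩
      have h2 : ∀ x : Omega d, ¬ Sw a b e c x := fun x hx =>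
        h ⟨hx.1, hx.2.2.2.2.2.1.symm, hx.2.2.1, hx.2.1, hx.2.2.2.2.1, hx.2.2.2.1⟩
      have h3 : ∀ x : Omega d, ¬ Sep a b c e x := fun x hx => hx.elim (h1 x) (h2 x)
      have h4 : ∀ x : Omega d, ¬ Sep c e a b x := fun x hx => h3 x ((Sep_swap a b c e x).1 hx)
      simp [hG, h, sd, negp, swp_of_not, h1, h2, h3, h4]
  have hsum : (∑ a, ∑ b, ∑ c, ∑ e, ((sd f a b c e + sd f a b e c) / 2 - negp f a b c e
      - negp f c e a b)) ≤ 2 * Dsum f := by
    simp only [Dsum, Finset.mul_sum]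
    exact Finset.sum_le_sum fun a _ => Finset.sum_le_sum fun b _ => Finset.sum_le_sum fun c _ =>
      Finset.sum_le_sum fun e _ => hterm a b c e
  have e1 : (∑ a, ∑ b, ∑ c, ∑ e, sd f a b e c) = ∑ a, ∑ b, ∑ c, ∑ e, sd f a b c e :=
    Finset.sum_congr rfl fun a _ => Finset.sum_congr rfl fun b _ => Finset.sum_comm
  have e2 : (∑ a, ∑ b, ∑ c, ∑ e, negp f c e a b) = ∑ a, ∑ b, ∑ c, ∑ e, negp f a b c e := by
    have h : ∀ F : Fin n → Fin n → Fin n → Fin n → ℝ, (∑ a, ∑ b, ∑ c, ∑ e, F a b c e)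
        = ∑ p : Fin n × Fin n, ∑ q : Fin n × Fin n, F p.1 p.2 q.1 q.2 := by
      intro F; simp only [Fintype.sum_prod_type]
    rw [h (fun a b c e => negp f c e a b), h, Finset.sum_comm]
  have e3 : (∑ a, ∑ b, ∑ c, ∑ e, negp f a b c e) ≤ (∑ a, ∑ b, ∑ c, ∑ e, sd f a b c e) / 2 := by
    rw [Finset.sum_div]
    refine Finset.sum_le_sum fun a _ => ?_
    rw [Finset.sum_div]
    refine Finset.sum_le_sum fun b _ => ?_
    rcases eq_or_ne a b with rfl | hab
    · have h : ∀ c e (x : Omega d), ¬ Sep a a c e x := fun c e x hx =>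
        hx.elim (fun hs => hs.1 rfl) (fun hs => hs.1 rfl)
      simp [negp, h]
      exact div_nonneg (Finset.sum_nonneg fun c _ => Finset.sum_nonneg fun e _ => sd_nonneg f a a c e)
        zero_le_two
    · exact negp_sum_le hab f
  simp only [Finset.sum_sub_distrib, ← Finset.sum_div, Finset.sum_add_distrib] at hsum
  linarith

end Vale.Agent.P335.Graph
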