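import Vale.Agent.P335.Slice
import Vale.Agent.P335.General.Trade

/-! One trade fibre is a slice: the spectral gap and the bound on the separation biases. -/

namespace Vale.Agent.P335

open Finset

namespace Graph

variable {n : ℕ} {d : Fin n → ℕ}

/-- The vertices joined to exactly one of `a` and `b`. -/
abbrev Exc (a b : Fin n) (G₀ : Omega d) : Type :=
  {v : Fin n // v ≠ a ∧ v ≠ b ∧ adj G₀ a v ≠ adj G₀ b v}

/-- The exclusive vertices on the side of `a`. -/
noncomputable def side (a b : Fin n) (G₀ G : Omega d) : Finset (Exc a b G₀) :=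
  univ.filter fun u => adj G a u.1 = true

variable {a b : Fin n} {G₀ : Omega d}

lemma mem_side {G : Omega d} {u : Exc a b G₀} : u ∈ side a b G₀ G ↔ adj G a u.1 = true := by
  simp [side]

lemma fib_out {G : Omega d} (hG : tkey a b G = tkey a b G₀) {v : Fin n} (h1 : v ≠ a)
    (h2 : v ≠ b) (h : adj G₀ a v = adj G₀ b v) :
    adj G a v = adj G₀ a v ∧ adj G b v = adj G₀ b v := by
  have h3 := ((tkey_eq_iff G G₀).1 hG).2.2 v h1 h2
  revert h3 h
  cases adj G a v <;> cases adj G b v <;> cases adj G₀ a v <;> cases adj G₀ b v <;> simp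

lemma fib_exc {G : Omega d} (hG : tkey a b G = tkey a b G₀) (u : Exc a b G₀) :
    adj G b u.1 = !adj G a u.1 := by
  have h3 := ((tkey_eq_iff G G₀).1 hG).2.2 u.1 u.2.1 u.2.2.1
  have h := u.2.2.2
  revert h3 h
  cases adj G a u.1 <;> cases adj G b u.1 <;> cases adj G₀ a u.1 <;> cases adj G₀ b u.1 <;> simp

lemma card_side {G : Omega d} (hG : tkey a b G = tkey a b G₀) :
    (side a b G₀ G).card = (side a b G₀ G₀).card := by
  classical
  have e : ∀ H : Omega d, (side a b G₀ H).card +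
      ∑ v ∈ univ.filter (fun v => ¬ (v ≠ a ∧ v ≠ b ∧ adj G₀ a v ≠ adj G₀ b v)),
        (adj H a v).toNat = d a := by
    intro H
    rw [← adj_sum H a, ← Finset.sum_filter_add_sum_filter_not univ
      (fun v => v ≠ a ∧ v ≠ b ∧ adj G₀ a v ≠ adj G₀ b v) (fun v => (adj H a v).toNat)]
    congr 1
    rw [Finset.sum_subtype (F := inferInstance)
      (p := fun v => v ≠ a ∧ v ≠ b ∧ adj G₀ a v ≠ adj G₀ b v) (univ.filter fun v =>
      v ≠ a ∧ v ≠ b ∧ adj G₀ a v ≠ adj G₀ b v) (fun v => by simp) (fun v => (adj H a v).toNat),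
      side, Finset.card_filter]
    exact Finset.sum_congr rfl fun u _ => by cases adj H a u.1 <;> rfl
  have h1 := e G
  have h2 := e G₀
  rw [Finset.sum_congr rfl (fun v hv => show (adj G a v).toNat = (adj G₀ a v).toNat by
    by_cases ha : v = a
    · simp [ha, adj_self]
    by_cases hb : v = b
    · rw [hb, ((tkey_eq_iff G G₀).1 hG).2.1]
    · simp [ha, hb] at hv
      rw [(fib_out hG ha hb hv).1])] at h1
  omega

lemma side_mem_sl {G : Omega d} (hG : G ∈ fib (tkey a b) G₀) :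
    side a b G₀ G ∈ Slice.sl (Exc a b G₀) (side a b G₀ G₀).card :=
  Slice.mem_sl.2 (card_side (mem_fib.1 hG))

lemma side_injOn : Set.InjOn (side a b G₀) (fib (tkey a b) G₀ : Set (Omega d)) := by
  intro G hG H hH he
  rw [Finset.mem_coe, mem_fib] at hG hH
  have hGH := (tkey_eq_iff G H).1 (hG.trans hH.symm)
  have hA : ∀ v, adj G a v = adj H a v := by
    intro v
    by_cases ha : v = a
    · simp [ha, adj_self]
    by_cases hb : v = b
    · rw [hb, hGH.2.1]
    by_cases h : adj G₀ a v = adj G₀ b v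
    · rw [(fib_out hG ha hb h).1, (fib_out hH ha hb h).1]
    · have := Finset.ext_iff.1 he ⟨v, ha, hb, h⟩
      simp only [mem_side] at this
      exact Bool.eq_iff_iff.2 this
  have hB : ∀ v, adj G b v = adj H b v := by
    intro v
    by_cases ha : v = a
    · rw [ha, adj_comm' G b a, adj_comm' H b a, hGH.2.1]
    by_cases hb : v = b
    · simp [hb, adj_self]
    have := hGH.2.2 v ha hb
    rw [hA v] at this
    revert this
    cases adj G b v <;> cases adj H b v <;> simp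
  refine ext_adj fun u v => ?_
  by_cases hua : u = a
  · rw [hua, hA]
  by_cases hub : u = b
  · rw [hub, hB]
  by_cases hva : v = a
  · rw [hva, adj_comm' G u a, adj_comm' H u a, hA]
  by_cases hvb : v = b
  · rw [hvb, adj_comm' G u b, adj_comm' H u b, hB]
  · exact hGH.1 u v hua hub hva hvb

lemma sw_iff (hab : a ≠ b) {G : Omega d} (hG : tkey a b G = tkey a b G₀) (c e : Exc a b G₀) :
    Sw a b c.1 e.1 G ↔ c ∈ side a b G₀ G ∧ e ∉ side a b G₀ G := by
  have hc := fib_exc hG c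
  have he := fib_exc hG e
  rw [mem_side, mem_side]
  constructor
  · rintro ⟨-, -, -, -, -, -, h1, -, h3, -⟩
    exact ⟨h1, by rw [h3]; simp⟩
  · rintro ⟨h1, h2⟩
    have h3 : adj G a e.1 = false := by simpa using h2
    refine ⟨hab, c.2.1.symm, e.2.1.symm, c.2.2.1.symm, e.2.2.1.symm, ?_, h1, ?_, h3, ?_⟩
    · intro h; rw [h, h3] at h1; exact Bool.noConfusion h1
    · rw [he, h3]; rfl
    · rw [hc, h1]; rfl

lemma side_swp (hab : a ≠ b) {G : Omega d} (hG : tkey a b G = tkey a b G₀) {c e : Exc a b G₀}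
    (hc : c ∈ side a b G₀ G) (he : e ∉ side a b G₀ G) :
    side a b G₀ (swp a b c.1 e.1 G) = Slice.mv (side a b G₀ G) c e := by
  have hs := (sw_iff hab hG c e).2 ⟨hc, he⟩
  have hce : c ≠ e := fun h => he (h ▸ hc)
  rw [mem_side] at hc he
  ext u
  simp only [mem_side, Slice.mv, Finset.mem_insert, Finset.mem_erase, swp_adj hs]
  have hua : u.1 ≠ a := u.2.1
  have hub : u.1 ≠ b := u.2.2.1
  rcases eq_or_ne u c with rfl | huc
  · simp [cell, hc, hce]
  rcases eq_or_ne u e with rfl | hue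
  · simp [cell, he]
  have h1 : u.1 ≠ c.1 := fun h => huc (Subtype.ext h)
  have h2 : u.1 ≠ e.1 := fun h => hue (Subtype.ext h)
  simp [cell, hua, hub, h1, h2, huc, hue]

lemma side_surjOn (hab : a ≠ b) : Set.SurjOn (side a b G₀) (fib (tkey a b) G₀ : Set (Omega d))
    (Slice.sl (Exc a b G₀) (side a b G₀ G₀).card : Set (Finset (Exc a b G₀))) := by
  classical
  intro S hS
  rw [Finset.mem_coe, Slice.mem_sl] at hS
  suffices H : ∀ k (G : Omega d), tkey a b G = tkey a b G₀ → (S \ side a b G₀ G).card ≤ k →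
      ∃ H : Omega d, tkey a b H = tkey a b G₀ ∧ side a b G₀ H = S by
    obtain ⟨H, h1, h2⟩ := H _ G₀ rfl le_rfl
    exact ⟨H, Finset.mem_coe.2 (mem_fib.2 h1), h2⟩
  intro k
  induction k with
  | zero =>
    intro G hG h
    refine ⟨G, hG, (Finset.eq_of_subset_of_card_le ?_ ?_).symm⟩
    · exact Finset.sdiff_eq_empty_iff_subset.1 (Finset.card_eq_zero.1 (Nat.le_zero.1 h))
    · rw [card_side hG, hS]
  | succ k ih =>
    intro G hG h
    by_cases hsub : S ⊆ side a b G₀ G
    · exact ⟨G, hG, (Finset.eq_of_subset_of_card_le hsub (by rw [card_side hG, hS])).symm⟩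
    obtain ⟨e, heS, he⟩ := Finset.not_subset.1 hsub
    obtain ⟨c, hc, hcS⟩ : ∃ c ∈ side a b G₀ G, c ∉ S := by
      by_contra hne
      push Not at hne
      have := Finset.eq_of_subset_of_card_le hne (by rw [card_side hG, hS])
      exact hsub this.ge
    refine ih (swp a b c.1 e.1 G) ((swp_tkey a b c.1 e.1 G).trans hG) ?_
    rw [side_swp hab hG hc he]
    have hlt : (S \ Slice.mv (side a b G₀ G) c e).card < (S \ side a b G₀ G).card := by
      refine Finset.card_lt_card ((Finset.ssubset_iff_of_subset ?_).2 ⟨e, by simp [heS, he], ?_⟩)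
      · intro x hx
        simp only [Slice.mv, Finset.mem_sdiff, Finset.mem_insert, Finset.mem_erase] at hx ⊢
        refine ⟨hx.1, fun hxs => hx.2 (Or.inr ⟨?_, hxs⟩)⟩
        rintro rfl
        exact hcS hx.1
      · simp [Slice.mv]
    omega

lemma sum_fib_eq_slice (hab : a ≠ b) (F : Omega d → ℝ) (g : Finset (Exc a b G₀) → ℝ)
    (hg : ∀ G ∈ fib (tkey a b) G₀, F G = g (side a b G₀ G)) :
    ∑ G ∈ fib (tkey a b) G₀, F G = ∑ S ∈ Slice.sl (Exc a b G₀) (side a b G₀ G₀).card, g S :=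
  Finset.sum_nbij (side a b G₀) (fun _ hG => side_mem_sl hG) side_injOn (side_surjOn hab) hg

lemma exists_slice_fun (f : Omega d → ℝ) :
    ∃ g : Finset (Exc a b G₀) → ℝ, ∀ G ∈ fib (tkey a b) G₀, f G = g (side a b G₀ G) := by
  classical
  refine ⟨fun S => if h : ∃ G ∈ fib (tkey a b) G₀, side a b G₀ G = S then f h.choose else 0,
    fun G hG => ?_⟩
  have h : ∃ H ∈ fib (tkey a b) G₀, side a b G₀ H = side a b G₀ G := ⟨G, hG, rfl⟩
  simp only [dif_pos h]
  congr 1
  exact side_injOn (Finset.mem_coe.2 hG) (Finset.mem_coe.2 h.choose_spec.1) h.choose_spec.2.symm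

lemma dir_le_fib (hab : a ≠ b) (f : Omega d → ℝ) (g : Finset (Exc a b G₀) → ℝ)
    (hg : ∀ G ∈ fib (tkey a b) G₀, f G = g (side a b G₀ G)) :
    Slice.dir (side a b G₀ G₀).card g ≤
      ∑ G ∈ fib (tkey a b) G₀, ∑ c, ∑ e, (f G - f (swp a b c e G)) ^ 2 := by
  classical
  have key : ∀ φ : Fin n → ℝ, (∀ v, 0 ≤ φ v) → ∀ T : Finset (Exc a b G₀),
      ∑ u ∈ T, φ u.1 ≤ ∑ v, φ v := by
    intro φ hφ T
    calc ∑ u ∈ T, φ u.1 = ∑ v ∈ T.map (Function.Embedding.subtype _), φ v := by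
          rw [Finset.sum_map]; rfl
      _ ≤ ∑ v, φ v := Finset.sum_le_sum_of_subset_of_nonneg (Finset.subset_univ _) fun v _ _ => hφ v
  rw [Slice.dir, ← sum_fib_eq_slice hab
    (fun G => ∑ c ∈ side a b G₀ G, ∑ e ∈ (side a b G₀ G)ᶜ,
      (g (side a b G₀ G) - g (Slice.mv (side a b G₀ G) c e)) ^ 2) _ (fun G _ => rfl)]
  refine Finset.sum_le_sum fun G hG => ?_
  refine le_trans (Finset.sum_le_sum fun c hc => ?_)
    (key (fun v => ∑ e, (f G - f (swp a b v e G)) ^ 2)
      (fun v => Finset.sum_nonneg fun e _ => sq_nonneg _) _)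
  refine le_trans (le_of_eq (Finset.sum_congr rfl fun e he => ?_))
    (key (fun w => (f G - f (swp a b c.1 w G)) ^ 2) (fun w => sq_nonneg _) _)
  rw [← side_swp hab (mem_fib.1 hG) hc (Finset.mem_compl.1 he), ← hg G hG,
    ← hg _ (mem_fib.2 ((swp_tkey a b c.1 e.1 G).trans (mem_fib.1 hG)))]

/-- A bound fibre by fibre gives the bound. -/
lemma le_sdir_of_fib (f : Omega d → ℝ) (F : Omega d → ℝ) (C : ℝ)
    (h : ∀ G₀ : Omega d, C * ∑ G ∈ fib (tkey a b) G₀, F G ≤
      ∑ G ∈ fib (tkey a b) G₀, ∑ c, ∑ e, (f G - f (swp a b c e G)) ^ 2) :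
    C * ∑ G, F G ≤ sdir f a b := by
  classical
  have e : sdir f a b = ∑ G : Omega d, ∑ c, ∑ e, (f G - f (swp a b c e G)) ^ 2 := by
    simp only [sdir, sd]
    conv_lhs => enter [2, c]; rw [Finset.sum_comm]
    rw [Finset.sum_comm]
  have hmap : ∀ G ∈ (univ : Finset (Omega d)), tkey a b G ∈ univ.image (tkey (d := d) a b) :=
    fun G _ => Finset.mem_image_of_mem _ (Finset.mem_univ G)
  rw [e, ← Finset.sum_fiberwise_of_maps_to hmap, ← Finset.sum_fiberwise_of_maps_to hmap,
    Finset.mul_sum]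
  refine Finset.sum_le_sum fun z hz => ?_
  obtain ⟨G₀, -, rfl⟩ := Finset.mem_image.1 hz
  exact h G₀

/-- The spectral gap inside one trade. -/
theorem dev_le_sdir (hab : a ≠ b) (f : Omega d → ℝ) :
    2 * ip (dev (tkey a b) f) (dev (tkey a b) f) ≤ sdir f a b := by
  classical
  refine le_sdir_of_fib f _ 2 fun G₀ => ?_
  obtain ⟨g, hg⟩ := exists_slice_fun (a := a) (b := b) (G₀ := G₀) f
  set s := (side a b G₀ G₀).card
  set μ := avg (tkey a b) f G₀
  have hdev : ∀ G ∈ fib (tkey a b) G₀, dev (tkey a b) f G * dev (tkey a b) f G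
      = (g (side a b G₀ G) - μ) ^ 2 := by
    intro G hG
    rw [dev_apply, Pi.sub_apply, avg_congr f (mem_fib.1 hG), ← hg G hG, sq]
  rw [sum_fib_eq_slice hab _ (fun S => (g S - μ) ^ 2) hdev]
  refine le_trans ?_ (dir_le_fib hab f g hg)
  have hsum : ∑ S ∈ Slice.sl (Exc a b G₀) s, (g S - μ) = 0 := by
    rw [← sum_fib_eq_slice hab (fun G => f G - μ) _ (fun G hG => by rw [hg G hG]),
      Finset.sum_sub_distrib, Finset.sum_const, nsmul_eq_mul]
    simp only [μ, avg_apply]
    rw [mul_div_cancel₀ _ (fib_card_pos _ _).ne', sub_self]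
  have hgap := Slice.gap s (fun S => g S - μ) hsum
  have hdir : Slice.dir s (fun S => g S - μ) = Slice.dir s g := by simp [Slice.dir]
  rw [hdir] at hgap
  change 2 * Slice.nsq s (fun S => g S - μ) ≤ _
  have hn : 0 ≤ Slice.nsq s (fun S => g S - μ) := Finset.sum_nonneg fun _ _ => sq_nonneg _
  rcases isEmpty_or_nonempty (Exc a b G₀) with hE | hE
  · have hz : ∀ S ∈ Slice.sl (Exc a b G₀) s, g S - μ = 0 := by
      intro S hS
      rw [Finset.sum_eq_single S] at hsum
      · exact hsum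
      · intro T _ hT; exact absurd (Subsingleton.elim T S) hT
      · exact fun h => absurd hS h
    have : Slice.nsq s (fun S => g S - μ) = 0 :=
      Finset.sum_eq_zero fun S hS => by simp [hz S hS]
    rw [this, mul_zero]
    exact Finset.sum_nonneg fun _ _ => Finset.sum_nonneg fun _ _ =>
      Finset.sum_nonneg fun _ _ => sq_nonneg _
  · have hk : (1 : ℝ) ≤ (Fintype.card (Exc a b G₀) : ℝ) := by
      exact_mod_cast Fintype.card_pos
    nlinarith

lemma sep_exc {G : Omega d} (hG : tkey a b G = tkey a b G₀) {c e : Fin n} (h : Sep a b c e G) :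
    (c ≠ a ∧ c ≠ b ∧ adj G₀ a c ≠ adj G₀ b c) ∧ (e ≠ a ∧ e ≠ b ∧ adj G₀ a e ≠ adj G₀ b e) := by
  have aux : ∀ v, v ≠ a → v ≠ b → adj G a v ≠ adj G b v → adj G₀ a v ≠ adj G₀ b v := by
    intro v h1 h2 hne heq
    obtain ⟨p, q⟩ := fib_out hG h1 h2 heq
    exact hne (by rw [p, q, heq])
  rcases h with ⟨-, x1, x2, x3, x4, -, p1, p2, p3, p4⟩ | ⟨-, x1, x2, x3, x4, -, p1, p2, p3, p4⟩
  · exact ⟨⟨x1.symm, x3.symm, aux c x1.symm x3.symm (by simp [p1, p4])⟩,
      ⟨x2.symm, x4.symm, aux e x2.symm x4.symm (by simp [p2, p3])⟩⟩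
  · exact ⟨⟨x2.symm, x4.symm, aux c x2.symm x4.symm (by simp [p2, p3])⟩,
      ⟨x1.symm, x3.symm, aux e x1.symm x3.symm (by simp [p1, p4])⟩⟩

lemma sep_iff (hab : a ≠ b) {G : Omega d} (hG : tkey a b G = tkey a b G₀) (c e : Exc a b G₀) :
    Sep a b c.1 e.1 G ↔ Slice.sep (side a b G₀ G) c e := by
  rw [Sep, sw_iff hab hG, sw_iff hab hG, Slice.sep]
  tauto

/-- The separation biases of one trade cost at most half of its Dirichlet form. -/
theorem negp_sum_le (hab : a ≠ b) (f : Omega d → ℝ) :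
    (∑ c, ∑ e, negp f a b c e) ≤ sdir f a b / 2 := by
  classical
  set F : Omega d → Fin n → Fin n → ℝ := fun G c e =>
    if Sep a b c e G then (avg (skey a b c e) f G - avg (tkey a b) f G) ^ 2 else 0 with hF
  have e1 : (∑ c, ∑ e, negp f a b c e) = ∑ G, ∑ c, ∑ e, F G c e := by
    simp only [negp, hF]
    conv_lhs => enter [2, c]; rw [Finset.sum_comm]
    rw [Finset.sum_comm]
  rw [e1]
  suffices h : 2 * ∑ G, ∑ c, ∑ e, F G c e ≤ sdir f a b by linarith
  refine le_sdir_of_fib f _ 2 fun G₀ => ?_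
  obtain ⟨g, hg⟩ := exists_slice_fun (a := a) (b := b) (G₀ := G₀) f
  refine le_trans ?_ (dir_le_fib hab f g hg)
  have hb := Slice.sep_bound (side a b G₀ G₀).card g
  set sl' := Slice.sl (Exc a b G₀) (side a b G₀ G₀).card
  have hμ : ∀ G ∈ fib (tkey a b) G₀,
      avg (tkey a b) f G = (∑ S ∈ sl', g S) / (sl'.card : ℝ) := by
    intro G hG
    rw [avg_congr f (mem_fib.1 hG), avg_apply, sum_fib_eq_slice hab f g hg]
    congr 1
    simpa using sum_fib_eq_slice (G₀ := G₀) hab (fun _ => (1 : ℝ)) (fun _ => 1) (fun _ _ => rfl)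
  have hA : ∀ c e : Exc a b G₀, ∀ G ∈ fib (tkey a b) G₀, Sep a b c.1 e.1 G →
      avg (skey a b c.1 e.1) f G = (∑ S ∈ sl'.filter (fun S => Slice.sep S c e), g S)
        / ((sl'.filter (fun S => Slice.sep S c e)).card : ℝ) := by
    intro c e G hG hs
    have hfib : fib (skey a b c.1 e.1) G =
        (fib (tkey a b) G₀).filter (fun H => Sep a b c.1 e.1 H) := by
      ext H
      simp only [mem_fib, skey, Prod.mk.injEq, Finset.mem_filter, mem_fib.1 hG, decide_eq_decide,
        hs, iff_true]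
    have key : ∀ (φ : Omega d → ℝ) (ψ : Finset (Exc a b G₀) → ℝ),
        (∀ H ∈ fib (tkey a b) G₀, φ H = ψ (side a b G₀ H)) →
        ∑ H ∈ (fib (tkey a b) G₀).filter (fun H => Sep a b c.1 e.1 H), φ H
          = ∑ S ∈ sl'.filter (fun S => Slice.sep S c e), ψ S := by
      intro φ ψ hφ
      rw [Finset.sum_filter, Finset.sum_filter]
      exact sum_fib_eq_slice hab _ (fun S => if Slice.sep S c e then ψ S else 0) fun H hH => by
        simp only [sep_iff hab (mem_fib.1 hH), hφ H hH]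
    rw [avg_apply, hfib, key f g hg]
    congr 1
    simpa using key (fun _ => 1) (fun _ => 1) (fun _ _ => rfl)
  have hin : ∀ G ∈ fib (tkey a b) G₀, ∑ c, ∑ e, F G c e =
      ∑ c : Exc a b G₀, ∑ e : Exc a b G₀, if Slice.sep (side a b G₀ G) c e then
        ((∑ S ∈ sl'.filter (fun S => Slice.sep S c e), g S)
            / ((sl'.filter (fun S => Slice.sep S c e)).card : ℝ)
          - (∑ S ∈ sl', g S) / (sl'.card : ℝ)) ^ 2 else 0 := by
    intro G hG
    have hGk := mem_fib.1 hG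
    have hsub : ∀ φ : Fin n → ℝ,
        (∀ v, ¬ (v ≠ a ∧ v ≠ b ∧ adj G₀ a v ≠ adj G₀ b v) → φ v = 0) →
        ∑ v, φ v = ∑ u : Exc a b G₀, φ u.1 := by
      intro φ hφ
      rw [← Finset.sum_subtype (F := inferInstance)
        (p := fun v => v ≠ a ∧ v ≠ b ∧ adj G₀ a v ≠ adj G₀ b v) (univ.filter fun v =>
        v ≠ a ∧ v ≠ b ∧ adj G₀ a v ≠ adj G₀ b v) (fun v => by simp) φ]
      exact (Finset.sum_subset (Finset.subset_univ _) fun v _ hv => hφ v (by simpa using hv)).symm
    rw [hsub _ fun v hv => Finset.sum_eq_zero fun e _ => if_neg fun h => hv (sep_exc hGk h).1]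
    refine Finset.sum_congr rfl fun c _ => ?_
    rw [hsub _ fun v hv => if_neg fun h => hv (sep_exc hGk h).2]
    refine Finset.sum_congr rfl fun e _ => ?_
    simp only [sep_iff hab hGk]
    split_ifs with h
    · rw [hA c e G hG ((sep_iff hab hGk c e).2 h), hμ G hG]
    · rfl
  rw [sum_fib_eq_slice hab _ (fun S => ∑ c : Exc a b G₀, ∑ e : Exc a b G₀,
    if Slice.sep S c e then
      ((∑ S ∈ sl'.filter (fun S => Slice.sep S c e), g S)
          / ((sl'.filter (fun S => Slice.sep S c e)).card : ℝ)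
        - (∑ S ∈ sl', g S) / (sl'.card : ℝ)) ^ 2 else 0) hin]
  refine le_trans (le_of_eq ?_) (le_trans (mul_le_mul_of_nonneg_left hb zero_le_two) (le_of_eq (by ring)))
  congr 1
  rw [Finset.sum_comm]
  refine Finset.sum_congr rfl fun c _ => ?_
  rw [Finset.sum_comm]
  refine Finset.sum_congr rfl fun e _ => ?_
  rw [← Finset.sum_filter, Finset.sum_const, nsmul_eq_mul]

end Graph

end Vale.Agent.P335
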