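import Vale.Agent.P335.General.Trade
import Vale.Agent.P335.Chain
import Vale.Agent.P335.Split

/-! The spectral gap of the trades and its comparison with the switch chain. -/

namespace Vale.Agent.P335.Graph

open Finset

variable {n : ℕ} {d : Fin n → ℕ}

lemma RT_symm (f g : Omega d → ℝ) : ip (RT f) g = ip f (RT g) := by
  simp only [RT, LinearMap.sum_apply, ip_sum_left, ip_sum_right, dev_symm]

lemma ip_RT_self (f : Omega d → ℝ) :
    ip (RT f) f = ∑ a : Fin n, ∑ b ∈ univ.erase a, ip (dev (tkey a b) f) (dev (tkey a b) f) := by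
  simp only [RT, LinearMap.sum_apply, ip_sum_left, ip_dev_self]

/-- Twice the sum of all trades is at most half its square, given the intersecting and the
disjoint part of the square. -/
theorem two_RT_le_of
    (hT3 : ∀ {a b c : Fin n}, a ≠ b → a ≠ c → b ≠ c → ∀ f : Omega d → ℝ,
      0 ≤ ip (dev (tkey a b) f) (dev (tkey a c) f) + ip (dev (tkey a b) f) (dev (tkey b c) f)
        + ip (dev (tkey a c) f) (dev (tkey b c) f))
    (hD : ∀ f : Omega d → ℝ, 0 ≤ Dsum f) (f : Omega d → ℝ) :
    2 * ip (RT f) f ≤ ip (RT f) (RT f) := by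
  classical
  set u : Fin n → Fin n → Omega d → ℝ := fun a b => if a = b then 0 else dev (tkey a b) f with hu
  have usymm : ∀ a b, u a b = u b a := by
    intro a b; simp only [hu, eq_comm (a := a) (b := b), dev_tkey_comm b a f]
  set G : Fin n → Fin n → Fin n → Fin n → ℝ := fun a b a' b' => ip (u a b) (u a' b') with hG
  have G0 : ∀ a a' b', G a a a' b' = 0 := by intro a a' b'; simp [hG, hu, ip]
  have Gs1 : ∀ a b a' b', G a b a' b' = G b a a' b' := by intro a b a' b'; simp only [hG, usymm a b]
  have Gs2 : ∀ a b a' b', G a b a' b' = G a b b' a' := by intro a b a' b'; simp only [hG, usymm a' b']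
  have Gc : ∀ a b a' b', G a b a' b' = G a' b' a b := by intro a b a' b'; simp only [hG]; exact ip_comm _ _
  have hR : RT f = ∑ a, ∑ b, u a b := by
    simp only [RT, LinearMap.sum_apply]
    refine Finset.sum_congr rfl fun a _ => ?_
    rw [← Finset.add_sum_erase univ _ (Finset.mem_univ a)]
    simp only [hu, if_true, zero_add]
    exact Finset.sum_congr rfl fun b hb => by rw [if_neg (Finset.ne_of_mem_erase hb).symm]
  have hL : ip (RT f) f = ∑ a, ∑ b, G a b a b := by
    rw [hR]; simp only [ip_sum_left]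
    refine Finset.sum_congr rfl fun a _ => Finset.sum_congr rfl fun b _ => ?_
    simp only [hG, hu]
    split_ifs
    · simp [ip]
    · exact ip_dev_self _ _
  have hQ : ip (RT f) (RT f) = ∑ a, ∑ b, ∑ a', ∑ b', G a b a' b' := by
    rw [hR]; simp only [ip_sum_left, hG]
    refine Finset.sum_congr rfl fun a _ => Finset.sum_congr rfl fun b _ => ?_
    rw [ip_sum_right]
    exact Finset.sum_congr rfl fun a' _ => ip_sum_right _ _ _
  -- disjoint pairs
  set P : Fin n → Fin n → Fin n → Fin n → ℝ := fun a b a' b' =>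
    if a ≠ a' ∧ a ≠ b' ∧ b ≠ a' ∧ b ≠ b' then G a b a' b' else 0 with hP
  have hPsum : (∑ a, ∑ b, ∑ a', ∑ b', P a b a' b') = Dsum f := by
    refine Finset.sum_congr rfl fun a _ => Finset.sum_congr rfl fun b _ =>
      Finset.sum_congr rfl fun a' _ => Finset.sum_congr rfl fun b' _ => ?_
    by_cases h1 : a = b
    · subst h1; simp [hP, G0]
    by_cases h2 : a' = b'
    · subst h2; simp [hP, Gc a b a' a', G0]
    simp only [hP, hG, hu, ne_eq, h1, h2, not_false_eq_true, true_and, if_false]
  -- the sum over ordered triples of distinct indices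
  set T : Fin n → Fin n → Fin n → ℝ := fun a b d => if b = d then 0 else G a b a d with hT
  have htri : ∀ a b d, 0 ≤ T a b d + T b a d + T d a b := by
    intro a b d
    simp only [hT]
    by_cases hab : a = b
    · subst hab
      by_cases had : a = d
      · subst had; simp
      · simp [had, G0, Gc a d a a]
    by_cases had : a = d
    · subst had; simp [hab, G0, Gc a b a a, Ne.symm hab, Gc b a b a]
    by_cases hbd : b = d
    · subst hbd; simp [hab, Gc b a b b, G0]
    simp only [hbd, had, hab, if_false]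
    have := hT3 hab had hbd f
    have e1 : G a b a d = ip (dev (tkey a b) f) (dev (tkey a d) f) := by simp [hG, hu, hab, had]
    have e2 : G b a b d = ip (dev (tkey a b) f) (dev (tkey b d) f) := by
      rw [Gs1]; simp [hG, hu, hab, hbd]
    have e3 : G d a d b = ip (dev (tkey a d) f) (dev (tkey b d) f) := by
      rw [Gs1, Gs2]; simp [hG, hu, had, hbd]
    rw [e1, e2, e3]; linarith
  have hTsum : 0 ≤ ∑ a, ∑ b, ∑ d, T a b d := by
    have h3 : (∑ a, ∑ b, ∑ d, (T a b d + T b a d + T d a b)) = 3 * ∑ a, ∑ b, ∑ d, T a b d := by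
      simp only [Finset.sum_add_distrib]
      rw [Finset.sum_comm (f := fun a b => ∑ d, T b a d)]
      have : (∑ a, ∑ b, ∑ d, T d a b) = ∑ a, ∑ b, ∑ d, T a b d := by
        calc (∑ a, ∑ b, ∑ d, T d a b) = ∑ a, ∑ d, ∑ b, T d a b :=
              Finset.sum_congr rfl fun a _ => Finset.sum_comm
          _ = ∑ d, ∑ a, ∑ b, T d a b := Finset.sum_comm
      rw [this]; ring
    have : 0 ≤ ∑ a, ∑ b, ∑ d, (T a b d + T b a d + T d a b) :=
      Finset.sum_nonneg fun a _ => Finset.sum_nonneg fun b _ => Finset.sum_nonneg fun d _ => htri a b d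
    linarith
  -- split each term by the intersection of the two pairs
  have hlow : ∀ a b, a ≠ b → ∀ a' b', (if a = a' ∧ b = b' then G a b a b else 0) +
      (if a = b' ∧ b = a' then G a b a b else 0) + ((if a = a' then T a b b' else 0) +
      (if a = b' then T a b a' else 0) + (if b = a' then T b a b' else 0) +
      (if b = b' then T b a a' else 0)) + P a b a' b' ≤ G a b a' b' := by
    intro a b hab a' b'
    simp only [hT, hP]
    by_cases h1 : a = a'
    · subst h1
      have k1 : ¬ (a = b' ∧ b = a) := fun h => hab h.2.symm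
      by_cases h4 : b = b'
      · subst h4
        simp only [k1, ne_eq, not_true_eq_false, false_and, and_false, if_false, hab, Ne.symm hab, if_true, if_false, and_self]
        linarith
      · by_cases h2 : a = b'
        · subst h2
          have z : G a b a a = 0 := by rw [Gc]; exact G0 _ _ _
          have z' : G b a b a = G a b a b := by rw [Gs1, Gs2]
          simp only [k1, ne_eq, not_true_eq_false, false_and, and_false, if_false, h4, hab, Ne.symm hab, and_false, if_true, if_false, z]
          linarith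
        · simp only [k1, ne_eq, not_true_eq_false, false_and, and_false, if_false, h4, h2, Ne.symm hab, and_false, if_true, if_false]
          linarith
    by_cases h2 : a = b'
    · subst h2
      have k1 : ¬ (a = a' ∧ b = a) := fun h => h1 h.1
      by_cases h3 : b = a'
      · subst h3
        have z : G a b b a = G a b a b := Gs2 _ _ _ _
        simp only [k1, ne_eq, not_true_eq_false, false_and, and_false, if_false, h1, Ne.symm hab, if_true, if_false, and_self, z]
        linarith
      · have z : G a b a' a = G a b a a' := Gs2 _ _ _ _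
        simp only [k1, ne_eq, not_true_eq_false, false_and, and_false, if_false, h1, h3, Ne.symm hab, and_false, if_true, if_false, z]
        linarith
    by_cases h3 : b = a'
    · subst h3
      have k1 : ¬ (a = b ∧ b = b') := fun h => hab h.1
      by_cases h4 : b = b'
      · subst h4
        have z : G a b b b = 0 := by rw [Gc]; exact G0 _ _ _
        simp only [k1, ne_eq, not_true_eq_false, false_and, and_false, if_false, h2, hab, false_and, if_true, if_false, z]
        linarith [Gc b a b b, G0 b b a]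
      · have z : G a b b b' = G b a b b' := Gs1 _ _ _ _
        simp only [k1, ne_eq, not_true_eq_false, false_and, and_false, if_false, h2, h4, hab, false_and, if_true, if_false, z]
        linarith
    by_cases h4 : b = b'
    · subst h4
      have z : G a b a' b = G b a b a' := by rw [Gs1, Gs2]
      simp only [h1, h2, h3, ne_eq, not_true_eq_false, false_and, and_false, if_true, if_false, z]
      linarith
    simp only [h1, h2, h3, h4, false_and, if_false, ne_eq, not_false_eq_true, and_self, if_true]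
    linarith
  have hpair : ∀ a b, a ≠ b → 2 * G a b a b + 2 * ((∑ d, T a b d) + ∑ d, T b a d) + ∑ a', ∑ b', P a b a' b'
      ≤ ∑ a', ∑ b', G a b a' b' := by
    intro a b hab
    refine le_trans (le_of_eq ?_) (Finset.sum_le_sum fun a' _ => Finset.sum_le_sum fun b' _ =>
      hlow a b hab a' b')
    simp only [Finset.sum_add_distrib]
    have f1 : ∀ (F : Fin n → ℝ) (x : Fin n), (∑ a', ∑ b' : Fin n, if x = a' then F b' else 0) = ∑ b', F b' := by
      intro F x
      rw [Finset.sum_comm]
      exact Finset.sum_congr rfl fun b' _ => by simp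
    have f2 : ∀ (F : Fin n → ℝ) (x : Fin n), (∑ a' : Fin n, ∑ b', if x = b' then F a' else 0) = ∑ a', F a' :=
      fun F x => Finset.sum_congr rfl fun a' _ => by simp
    have f3 : (∑ a', ∑ b', if a = a' ∧ b = b' then G a b a b else 0) = G a b a b := by
      simp only [ite_and]; rw [f1 (fun b' => if b = b' then G a b a b else 0) a]; simp
    have f4 : (∑ a', ∑ b', if a = b' ∧ b = a' then G a b a b else 0) = G a b a b := by
      simp only [ite_and]; rw [f2 (fun a' => if b = a' then G a b a b else 0) a]; simp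
    rw [f3, f4, f1 (fun b' => T a b b') a, f2 (fun a' => T a b a') a,
      f1 (fun b' => T b a b') b, f2 (fun a' => T b a a') b]
    ring
  have hdiag : ∀ a, (∑ a', ∑ b', G a a a' b') = 0 ∧ (∑ d, T a a d) = 0 ∧ G a a a a = 0 := fun a =>
    ⟨Finset.sum_eq_zero fun _ _ => Finset.sum_eq_zero fun _ _ => G0 _ _ _,
      Finset.sum_eq_zero fun d _ => by simp [hT, G0], G0 _ _ _⟩
  have hall : ∀ a b, 2 * G a b a b + 2 * ((∑ d, T a b d) + ∑ d, T b a d) + ∑ a', ∑ b', P a b a' b'
      ≤ ∑ a', ∑ b', G a b a' b' := by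
    intro a b
    rcases eq_or_ne a b with rfl | hab
    · obtain ⟨h1, h2, h3⟩ := hdiag a; simp [h1, h2, h3, hP, G0]
    · exact hpair a b hab
  have := Finset.sum_le_sum (s := (univ : Finset (Fin n))) fun a _ =>
    Finset.sum_le_sum (s := (univ : Finset (Fin n))) fun b _ => hall a b
  rw [← hQ] at this
  simp only [mul_add, Finset.sum_add_distrib, ← Finset.mul_sum] at this
  rw [Finset.sum_comm (f := fun a b => ∑ d, T b a d), ← hL, hPsum] at this
  have := hD f
  linarith

lemma form_nonneg (f : Omega d → ℝ) : 0 ≤ form d f :=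
  Finset.sum_nonneg fun G _ => Finset.sum_nonneg fun H _ =>
    mul_nonneg (jump_nonneg d G H) (sq_nonneg _)

/-- Each kind of switch is dominated by the chain. -/
lemma sd_le_form (f : Omega d → ℝ) (a b c e : Fin n) :
    sd f a b c e ≤ ((n.choose 4 : ℝ) * 2 ^ 20) * form d f := by
  rw [sd, form, Finset.mul_sum]
  refine Finset.sum_le_sum fun G _ => ?_
  have h0 : ∀ H, 0 ≤ jump d G H * (f G - f H) ^ 2 :=
    fun H => mul_nonneg (jump_nonneg d G H) (sq_nonneg _)
  by_cases h : Sw a b c e G
  swap
  · rw [swp_of_not h]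
    simpa using mul_nonneg (mul_nonneg (Nat.cast_nonneg (n.choose 4)) (by norm_num : (0:ℝ) ≤ 2 ^ 20))
      (Finset.sum_nonneg fun H _ => h0 H)
  obtain ⟨hab, hac, hae, hbc, hbe, hce, h1, h2, h3, h4⟩ := h
  have h : Sw a b c e G := ⟨hab, hac, hae, hbc, hbe, hce, h1, h2, h3, h4⟩
  have hj : 1 ≤ ((n.choose 4 : ℝ) * 2 ^ 20) * jump d G (swp a b c e G) := by
    refine jump_ge_of_switch G _ a b c e hab hac hae hbc hbe hce ((adj_iff _ _ _).1 h1)
      ((adj_iff _ _ _).1 h2) (fun k => by rw [← adj_iff, h3] at k; exact Bool.noConfusion k)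
      (fun k => by rw [← adj_iff, h4] at k; exact Bool.noConfusion k) fun u v => ?_
    rw [← adj_iff, swp_adj h, ← adj_iff]
    have he : ∀ p q, (s(u, v) = s(p, q)) ↔ (u = p ∧ v = q) ∨ (u = q ∧ v = p) :=
      fun p q => Sym2.eq_iff
    simp only [he]
    have h5 : adj G c a = true := by rw [adj_comm', h1]
    have h6 : adj G e b = true := by rw [adj_comm', h2]
    have h7 : adj G e a = false := by rw [adj_comm', h3]
    have h8 : adj G c b = false := by rw [adj_comm', h4]
    by_cases hc : cell a b c e u v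
    · rw [if_pos hc]
      rcases hc with ⟨hu | hu, hv | hv⟩ | ⟨hv | hv, hu | hu⟩ <;> subst hu hv <;>
        simp [h1, h2, h3, h4, h5, h6, h7, h8, hac, hae, hbc, hbe, hce, hab, Ne.symm hac, Ne.symm hae,
          Ne.symm hbc, Ne.symm hbe, Ne.symm hce, Ne.symm hab]
    · rw [if_neg hc]
      have n1 : ¬ ((u = a ∧ v = c) ∨ (u = c ∧ v = a)) := fun k => hc (k.elim
        (fun k => Or.inl ⟨Or.inl k.1, Or.inl k.2⟩) fun k => Or.inr ⟨Or.inl k.2, Or.inl k.1⟩)
      have n2 : ¬ ((u = b ∧ v = e) ∨ (u = e ∧ v = b)) := fun k => hc (k.elim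
        (fun k => Or.inl ⟨Or.inr k.1, Or.inr k.2⟩) fun k => Or.inr ⟨Or.inr k.2, Or.inr k.1⟩)
      have n3 : ¬ ((u = a ∧ v = e) ∨ (u = e ∧ v = a)) := fun k => hc (k.elim
        (fun k => Or.inl ⟨Or.inl k.1, Or.inr k.2⟩) fun k => Or.inr ⟨Or.inl k.2, Or.inr k.1⟩)
      have n4 : ¬ ((u = b ∧ v = c) ∨ (u = c ∧ v = b)) := fun k => hc (k.elim
        (fun k => Or.inl ⟨Or.inr k.1, Or.inl k.2⟩) fun k => Or.inr ⟨Or.inr k.2, Or.inl k.1⟩)
      simp only [n1, n2, n3, n4, or_false, not_false_eq_true, and_true]
  calc (f G - f (swp a b c e G)) ^ 2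
      ≤ ((n.choose 4 : ℝ) * 2 ^ 20) * (jump d G (swp a b c e G) * (f G - f (swp a b c e G)) ^ 2) := by
        rw [← mul_assoc]; exact le_mul_of_one_le_left (sq_nonneg _) hj
    _ ≤ _ := mul_le_mul_of_nonneg_left
        (Finset.single_le_sum (fun H _ => h0 H) (Finset.mem_univ _)) (by positivity)

/-- The spectral gap of the trades, given the two parts of the square and connectivity. -/
theorem poincare_RT_of
    (hT3 : ∀ {a b c : Fin n}, a ≠ b → a ≠ c → b ≠ c → ∀ f : Omega d → ℝ,
      0 ≤ ip (dev (tkey a b) f) (dev (tkey a c) f) + ip (dev (tkey a b) f) (dev (tkey b c) f)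
        + ip (dev (tkey a c) f) (dev (tkey b c) f))
    (hD : ∀ f : Omega d → ℝ, 0 ≤ Dsum f)
    (hconn : ∀ f : Omega d → ℝ, (∀ a b c e G, f (swp a b c e G) = f G) → ∀ G H, f G = f H)
    (f : Omega d → ℝ) (h0 : ∑ G, f G = 0) : 2 * ip f f ≤ ip (RT f) f := by
  classical
  set R := (RT : (Omega d → ℝ) →ₗ[ℝ] _)
  have hker : ∀ g, R g = 0 → ∀ x y, g x = g y := by
    intro g hg
    refine hconn g fun a b c e G => ?_
    by_cases hs : Sw a b c e G
    swap
    · rw [swp_of_not hs]
    have h := ip_RT_self (d := d) g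
    rw [show RT g = 0 from hg] at h
    have hz : ip (0 : Omega d → ℝ) g = 0 := by simp [ip]
    rw [hz, eq_comm] at h
    have hd := (Finset.sum_eq_zero_iff_of_nonneg fun a _ =>
      Finset.sum_nonneg fun b _ => ip_self_nonneg _).1 h a (Finset.mem_univ a)
    have := (Finset.sum_eq_zero_iff_of_nonneg fun b _ => ip_self_nonneg _).1 hd b
      (Finset.mem_erase.2 ⟨hs.1.symm, Finset.mem_univ b⟩)
    rw [ip_self_eq_zero, dev_apply, sub_eq_zero] at this
    rw [this]; exact avg_congr g (swp_tkey a b c e G)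
  have hrange : f ∈ LinearMap.range R := by
    rcases isEmpty_or_nonempty (Omega d) with hE | ⟨⟨x₀⟩⟩
    · exact ⟨0, funext fun x => isEmptyElim x⟩
    let φ : (Omega d → ℝ) →ₗ[ℝ] ℝ := ∑ x, LinearMap.proj x
    have hφ : ∀ g, φ g = ∑ x, g x := fun g => by simp [φ]
    have hsub : LinearMap.range R ≤ LinearMap.ker φ := by
      rintro _ ⟨g, rfl⟩
      rw [LinearMap.mem_ker, hφ]
      have h1 : RT (d := d) (fun _ => 1) = 0 := by
        simp only [RT, LinearMap.sum_apply]
        refine Finset.sum_eq_zero fun a _ => Finset.sum_eq_zero fun b _ => ?_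
        rw [dev_apply, avg_fixed (fun _ _ _ => rfl), sub_self]
      have := RT_symm (d := d) g (fun _ => 1)
      rw [h1] at this
      simpa [ip] using this
    have hk : LinearMap.ker R ≤ Submodule.span ℝ {fun _ => (1 : ℝ)} := by
      intro g hg
      rw [Submodule.mem_span_singleton]
      exact ⟨g x₀, funext fun x => by simpa using hker g hg x₀ x⟩
    have hk1 : Module.finrank ℝ (LinearMap.ker R) ≤ 1 :=
      (Submodule.finrank_mono hk).trans ((finrank_span_le_card _).trans (by simp))
    have hlt : Module.finrank ℝ (LinearMap.ker φ) < Module.finrank ℝ (Omega d → ℝ) := by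
      refine Submodule.finrank_lt fun htop => ?_
      have : (Pi.single x₀ (1:ℝ)) ∈ LinearMap.ker φ := by rw [htop]; exact Submodule.mem_top
      rw [LinearMap.mem_ker, hφ] at this
      simp at this
    have := LinearMap.finrank_range_add_finrank_ker R
    have heq : LinearMap.range R = LinearMap.ker φ :=
      Submodule.eq_of_le_of_finrank_le hsub (by omega)
    rw [heq, LinearMap.mem_ker, hφ]; exact h0
  obtain ⟨g, rfl⟩ := hrange
  -- Cauchy–Schwarz in the seminorm of `R2`
  have hpos : ∀ h, 0 ≤ ip (R h) h := fun h => by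
    rw [ip_RT_self]; exact Finset.sum_nonneg fun a _ => Finset.sum_nonneg fun b _ => ip_self_nonneg _
  have hge := two_RT_le_of (d := d) hT3 hD g
  have hcs : 0 ≤ ip (R (R g - (2:ℝ) • g)) (R g - (2:ℝ) • g) := hpos _
  simp only [map_sub, map_smul, ip_sub_left, ip_sub_right, ip_smul_left, ip_smul_right] at hcs
  have e1 : ip (R (R g)) g = ip (R g) (R g) := RT_symm _ _
  linarith

/-- The Poincaré inequality of the switch chain, given the facts about single trades. -/
theorem poincare_form_of
    (hT3 : ∀ {a b c : Fin n}, a ≠ b → a ≠ c → b ≠ c → ∀ f : Omega d → ℝ,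
      0 ≤ ip (dev (tkey a b) f) (dev (tkey a c) f) + ip (dev (tkey a b) f) (dev (tkey b c) f)
        + ip (dev (tkey a c) f) (dev (tkey b c) f))
    (hD : ∀ f : Omega d → ℝ, 0 ≤ Dsum f)
    (hconn : ∀ f : Omega d → ℝ, (∀ a b c e G, f (swp a b c e G) = f G) → ∀ G H, f G = f H)
    (hdev : ∀ {a b : Fin n}, a ≠ b → ∀ f : Omega d → ℝ,
      2 * ip (dev (tkey a b) f) (dev (tkey a b) f) ≤ sdir f a b)
    (f : Omega d → ℝ) (h0 : ∑ G, f G = 0) :
    4 * ip f f ≤ (n : ℝ) ^ 8 * 2 ^ 20 * form d f := by
  set K : ℝ := ((n.choose 4 : ℝ) * 2 ^ 20) * form d f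
  have hK : 0 ≤ K := mul_nonneg (by positivity) (form_nonneg f)
  have hpair : ∀ a b : Fin n, a ≠ b →
      2 * ip (dev (tkey a b) f) (dev (tkey a b) f) ≤ (n : ℝ) ^ 2 * K := by
    intro a b hab
    refine (hdev hab f).trans ?_
    calc sdir f a b ≤ ∑ _c : Fin n, ∑ _e : Fin n, K :=
          Finset.sum_le_sum fun c _ => Finset.sum_le_sum fun e _ => sd_le_form f a b c e
      _ = _ := by simp; ring
  have h := poincare_RT_of hT3 hD hconn f h0
  have h2 : 2 * ip (RT f) f ≤ (n : ℝ) ^ 4 * K := by
    rw [ip_RT_self, Finset.mul_sum]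
    calc _ ≤ ∑ _a : Fin n, ∑ _b : Fin n, (n : ℝ) ^ 2 * K :=
          Finset.sum_le_sum fun a _ => by
            rw [Finset.mul_sum]
            exact (Finset.sum_le_sum fun b hb => hpair a b (Finset.ne_of_mem_erase hb).symm).trans
              (Finset.sum_le_sum_of_subset_of_nonneg (Finset.erase_subset _ _)
                fun _ _ _ => mul_nonneg (by positivity) hK)
      _ = _ := by simp; ring
  have hc : (n.choose 4 : ℝ) ≤ (n : ℝ) ^ 4 := by exact_mod_cast Nat.choose_le_pow n 4
  calc 4 * ip f f ≤ (n : ℝ) ^ 4 * K := by linarith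
    _ ≤ (n : ℝ) ^ 4 * (((n : ℝ) ^ 4 * 2 ^ 20) * form d f) := by
        refine mul_le_mul_of_nonneg_left ?_ (by positivity)
        exact mul_le_mul_of_nonneg_right (by nlinarith) (form_nonneg f)
    _ = _ := by ring

end Vale.Agent.P335.Graph
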