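import Vale.Agent.P335.Bip
import Vale.Agent.P335.General.Trade

/-! The three trades inside a triple of vertices: a fibre is a set of three-row zero-one matrices,
the three edges of the triangle giving one extra column. -/

namespace Vale.Agent.P335

namespace Graph

open Finset

variable {n : ℕ} {d : Fin n → ℕ}

namespace Tri

variable (v : Fin 3 → Fin n)

/-- The position of a vertex in the triple. -/
def idx (u : Fin n) : Option (Fin 3) :=
  if u = v 0 then some 0 else if u = v 1 then some 1 else if u = v 2 then some 2 else none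

/-- The vertices outside the triple. -/
abbrev Out := {w : Fin n // idx v w = none}

/-- The number of edges from the triple to `w`. -/
noncomputable def cs (G : Omega d) (w : Fin n) : ℕ := ∑ i, (adj G (v i) w).toNat

/-- The number of edges inside the triple. -/
noncomputable def tn (G : Omega d) : ℕ := ∑ i : Fin 3, (adj G (v (i + 1)) (v (i + 2))).toNat

/-- What the three trades inside the triple keep. -/
noncomputable def tri (G : Omega d) : (Fin n → Fin n → Bool) × (Fin n → ℕ) × ℕ :=
  (fun u w => decide (idx v u = none ∧ idx v w = none) && adj G u w,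
    fun w => if idx v w = none then cs v G w else 0, tn v G)

lemma tri_eq_iff (G H : Omega d) : tri v G = tri v H ↔
    (∀ u w, idx v u = none → idx v w = none → adj G u w = adj H u w) ∧
      (∀ w, idx v w = none → cs v G w = cs v H w) ∧ tn v G = tn v H := by
  simp only [tri, Prod.mk.injEq, funext_iff]
  constructor
  · rintro ⟨h1, h2, h3⟩
    refine ⟨fun u w hu hw => ?_, fun w hw => ?_, h3⟩
    · simpa [hu, hw] using h1 u w
    · simpa [hw] using h2 w
  · rintro ⟨h1, h2, h3⟩
    refine ⟨fun u w => ?_, fun w => ?_, h3⟩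
    · by_cases h : idx v u = none ∧ idx v w = none
      · simp [h, h1 u w h.1 h.2]
      · simp [h]
    · by_cases h : idx v w = none
      · simp [h, h2 w h]
      · simp [h]

lemma idx_none (u : Fin n) : idx v u = none ↔ ∀ i, u ≠ v i := by
  simp only [idx, Fin.forall_fin_succ]
  split_ifs <;> simp_all

lemma idx_apply (hv : Function.Injective v) (i : Fin 3) : idx v (v i) = some i := by
  fin_cases i <;> simp [idx, hv.eq_iff]

lemma idx_some {u : Fin n} {i : Fin 3} (h : idx v u = some i) : u = v i := by
  simp only [idx] at h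
  split_ifs at h <;> simp_all

lemma sum_split (hv : Function.Injective v) (f : Fin n → ℕ) :
    ∑ w, f w = ∑ i, f (v i) + ∑ w : Out v, f w.1 := by
  rw [← Finset.sum_add_sum_compl (univ.image v), Finset.sum_image fun a _ b _ h => hv h]
  congr 1
  refine Finset.sum_subtype _ (fun w => ?_) f
  rw [idx_none]
  simp only [mem_compl, mem_image, mem_univ, true_and, not_exists]
  exact forall_congr' fun i => ne_comm

lemma fin3 (i : Fin 3) : i + 1 + 1 = i + 2 ∧ i + 1 + 2 = i ∧ i + 2 + 1 = i ∧ i + 2 + 2 = i + 1 ∧
    i ≠ i + 1 ∧ i ≠ i + 2 ∧ i + 1 ≠ i + 2 ∧ ∀ l, l = i ∨ l = i + 1 ∨ l = i + 2 := by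
  revert i; decide

lemma sum3 (i : Fin 3) (F : Fin 3 → ℕ) : ∑ j, F j = F i + F (i + 1) + F (i + 2) := by
  fin_cases i <;> simp [Fin.sum_univ_three] <;> ring

lemma tn_eq (i : Fin 3) (G : Omega d) : tn v G = (adj G (v (i + 1)) (v (i + 2))).toNat +
    (adj G (v i) (v (i + 1))).toNat + (adj G (v i) (v (i + 2))).toNat := by
  obtain ⟨h1, h2, h3, h4, -⟩ := fin3 i
  rw [tn, sum3 i, h1, h2, h3, h4, adj_comm' G (v (i + 2)) (v i)]
  omega

lemma degree_eq (hv : Function.Injective v) (i : Fin 3) (G : Omega d) :
    d (v i) = (adj G (v i) (v (i + 1))).toNat + (adj G (v i) (v (i + 2))).toNat +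
      ∑ w : Out v, (adj G (v i) w.1).toNat := by
  rw [← adj_sum G (v i), sum_split v hv, sum3 i, adj_self]
  simp

lemma not_toNat (x : Bool) : (!x).toNat = 1 - x.toNat := by cases x <;> rfl

variable (x₀ : Omega d)

/-- The row sums in the fibre of `x₀`. -/
noncomputable def rsum (i : Fin 3) : ℕ := d (v i) + 1 - tn v x₀

/-- The column sums in the fibre of `x₀`. -/
noncomputable def csum : Option (Out v) → ℕ
  | none => 3 - tn v x₀
  | some w => cs v x₀ w.1

/-- The matrix of a graph: the cross entries and the complements of the opposite edges. -/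
noncomputable def toVal (G : Omega d) : Fin 3 → Option (Out v) → Bool
  | i, none => !adj G (v (i + 1)) (v (i + 2))
  | i, some w => adj G (v i) w.1

lemma toVal_ok (hv : Function.Injective v) {G : Omega d} (hG : tri v G = tri v x₀) :
    (∀ i, ∑ j, (toVal v G i j).toNat = rsum v x₀ i) ∧
      ∀ j, ∑ i, (toVal v G i j).toNat = csum v x₀ j := by
  obtain ⟨-, h2, h3⟩ := (tri_eq_iff v _ _).1 hG
  refine ⟨fun i => ?_, fun j => ?_⟩
  · have := degree_eq v hv i G
    have := tn_eq v i G
    have := Bool.toNat_le (adj G (v (i + 1)) (v (i + 2)))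
    simp only [Fintype.sum_option, toVal, not_toNat, rsum, ← h3]
    omega
  · rcases j with - | w
    · have := Bool.toNat_le (adj G (v 0) (v 1))
      have := Bool.toNat_le (adj G (v 1) (v 2))
      have := Bool.toNat_le (adj G (v 0) (v 2))
      have h := tn_eq v 0 G
      simp only [zero_add] at h
      simp only [toVal, csum, ← h3, Fin.sum_univ_three, not_toNat, zero_add,
        show (1 : Fin 3) + 1 = 2 from rfl, show (1 : Fin 3) + 2 = 0 from rfl,
        show (2 : Fin 3) + 1 = 0 from rfl, show (2 : Fin 3) + 2 = 1 from rfl,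
        adj_comm' G (v 2) (v 0)]
      omega
    · exact h2 w.1 w.2

variable {v x₀}

/-- The entries between the triple and `w`. -/
def col (s : Bip.Mat (rsum v x₀) (csum v x₀)) (w : Fin n) (i : Fin 3) : Bool :=
  if h : idx v w = none then s.val i (some ⟨w, h⟩) else false

/-- The adjacency entries of a matrix. -/
noncomputable def entry (s : Bip.Mat (rsum v x₀) (csum v x₀)) (u w : Fin n) : Bool :=
  match idx v u, idx v w with
  | some i, some j => if i = j then false else !s.val (-(i + j)) none
  | some i, none => col s w i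
  | none, some j => col s u j
  | none, none => adj x₀ u w

lemma entry_comm (s : Bip.Mat (rsum v x₀) (csum v x₀)) (u w : Fin n) :
    entry s u w = entry s w u := by
  unfold entry
  rcases idx v u with - | i <;> rcases idx v w with - | j <;> simp only
  · exact adj_comm' x₀ u w
  · rcases eq_or_ne i j with rfl | h
    · rfl
    · rw [if_neg h, if_neg h.symm, add_comm]

lemma entry_self (s : Bip.Mat (rsum v x₀) (csum v x₀)) (u : Fin n) : entry s u u = false := by
  unfold entry
  rcases idx v u with - | i <;> simp [adj_self]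

lemma entry_in (hv : Function.Injective v) (s : Bip.Mat (rsum v x₀) (csum v x₀)) (i : Fin 3) :
    entry s (v i) (v (i + 1)) = !s.val (i + 2) none ∧
      entry s (v i) (v (i + 2)) = !s.val (i + 1) none ∧
        entry s (v (i + 1)) (v (i + 2)) = !s.val i none := by
  simp only [entry, idx_apply v hv]
  fin_cases i <;> refine ⟨?_, ?_, ?_⟩ <;> rfl

lemma entry_cross (hv : Function.Injective v) (s : Bip.Mat (rsum v x₀) (csum v x₀)) (i : Fin 3)
    (w : Out v) : entry s (v i) w.1 = s.val i (some w) ∧ entry s w.1 (v i) = s.val i (some w) := by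
  simp [entry, idx_apply v hv, w.2, col]

lemma entry_out (s : Bip.Mat (rsum v x₀) (csum v x₀)) {u w : Fin n} (hu : idx v u = none)
    (hw : idx v w = none) : entry s u w = adj x₀ u w := by
  simp [entry, hu, hw]

lemma entry_deg (hv : Function.Injective v) (s : Bip.Mat (rsum v x₀) (csum v x₀)) (u : Fin n) :
    ∑ w, (entry s u w).toNat = d u := by
  rw [sum_split v hv]
  rcases h : idx v u with - | i
  · rw [← adj_sum x₀ u, sum_split v hv (fun w => (adj x₀ u w).toNat)]
    have e1 : ∀ i, entry s u (v i) = s.val i (some ⟨u, h⟩) := fun i =>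
      (entry_cross hv s i ⟨u, h⟩).2
    have e2 : ∀ w : Out v, entry s u w.1 = adj x₀ u w.1 := fun w => entry_out s h w.2
    simp only [e1, e2, s.2.2, csum, cs, adj_comm' x₀ u]
  · obtain rfl := idx_some v h
    obtain ⟨h1, h2, -⟩ := entry_in hv s i
    simp only [sum3 i, h1, h2, entry_self, (entry_cross hv s i _).1, not_toNat, Bool.toNat_false]
    have hr := s.2.1 i
    have hc := s.2.2 none
    rw [Fintype.sum_option] at hr
    simp only [sum3 i, csum] at hc
    have := Bool.toNat_le (s.val (i + 1) none)
    have := Bool.toNat_le (s.val (i + 2) none)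
    have := degree_eq v hv i x₀
    have := tn_eq v i x₀
    have := Bool.toNat_le (adj x₀ (v (i + 1)) (v (i + 2)))
    have := Bool.toNat_le (adj x₀ (v i) (v (i + 1)))
    have := Bool.toNat_le (adj x₀ (v i) (v (i + 2)))
    simp only [rsum] at hr
    omega

/-- The graph of a matrix. -/
noncomputable def ofMat (hv : Function.Injective v) (s : Bip.Mat (rsum v x₀) (csum v x₀)) :
    Omega d := mkO (entry s) (entry_comm s) (entry_self s) (entry_deg hv s)

lemma tri_ofMat (hv : Function.Injective v) (s : Bip.Mat (rsum v x₀) (csum v x₀)) :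
    tri v (ofMat hv s) = tri v x₀ := by
  rw [tri_eq_iff]
  refine ⟨fun u w hu hw => ?_, fun w hw => ?_, ?_⟩
  · rw [ofMat, adj_mkO, entry_out s hu hw]
  · have e : ∀ i, entry s (v i) w = s.val i (some ⟨w, hw⟩) := fun i =>
      (entry_cross hv s i ⟨w, hw⟩).1
    simp only [cs, ofMat, adj_mkO, e]
    exact s.2.2 (some ⟨w, hw⟩)
  · have e : ∀ i, entry s (v (i + 1)) (v (i + 2)) = !s.val i none := fun i => (entry_in hv s i).2.2
    simp only [tn, ofMat, adj_mkO, e, not_toNat]
    have hc := s.2.2 none
    simp only [csum, Fin.sum_univ_three, tn] at hc ⊢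
    have := Bool.toNat_le (s.val 0 none)
    have := Bool.toNat_le (s.val 1 none)
    have := Bool.toNat_le (s.val 2 none)
    have := Bool.toNat_le (adj x₀ (v (0 + 1)) (v (0 + 2)))
    have := Bool.toNat_le (adj x₀ (v (1 + 1)) (v (1 + 2)))
    have := Bool.toNat_le (adj x₀ (v (2 + 1)) (v (2 + 2)))
    omega

variable (x₀) in
/-- A fibre is a set of three-row matrices. -/
noncomputable def fibEquiv (hv : Function.Injective v) :
    Bip.Mat (rsum v x₀) (csum v x₀) ≃ {G : Omega d // tri v G = tri v x₀} where
  toFun s := ⟨ofMat hv s, tri_ofMat hv s⟩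
  invFun G := ⟨toVal v G.1, toVal_ok v x₀ hv G.2⟩
  left_inv s := by
    ext i j
    rcases j with - | w
    · simp [toVal, ofMat, (entry_in hv s i).2.2]
    · simp [toVal, ofMat, (entry_cross hv s i w).1]
  right_inv G := by
    apply Subtype.ext
    refine ext_adj fun u w => ?_
    change adj (ofMat hv _) u w = _
    simp only [ofMat, adj_mkO]
    rcases hu : idx v u with - | i <;> rcases hw : idx v w with - | j
    · rw [entry_out _ hu hw]
      exact (((tri_eq_iff v _ _).1 G.2).1 u w hu hw).symm
    · obtain rfl := idx_some v hw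
      rw [(entry_cross hv _ j ⟨u, hu⟩).2]
      exact adj_comm' _ _ _
    · obtain rfl := idx_some v hu
      rw [(entry_cross hv _ i ⟨w, hw⟩).1]
      rfl
    · obtain rfl := idx_some v hu
      obtain rfl := idx_some v hw
      obtain ⟨h1, h2, h3, h4, -, -, -, h8⟩ := fin3 i
      rcases h8 j with rfl | rfl | rfl
      · rw [entry_self, adj_self]
      · rw [(entry_in hv _ i).1]
        simp only [toVal, Bool.not_not, h3, h4]
      · rw [(entry_in hv _ i).2.1]
        simp only [toVal, Bool.not_not, h1, h2]
        exact adj_comm' _ _ _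

lemma tri_of_tkey (hv : Function.Injective v) (i : Fin 3) {G H : Omega d}
    (h : tkey (v i) (v (i + 1)) G = tkey (v i) (v (i + 1)) H) : tri v G = tri v H := by
  obtain ⟨-, -, -, -, -, e6, e7, -⟩ := fin3 i
  obtain ⟨h1, h2, h3⟩ := (tkey_eq_iff G H).1 h
  rw [tri_eq_iff]
  refine ⟨fun u w hu hw => ?_, fun w hw => ?_, ?_⟩
  · rw [idx_none] at hu hw
    exact h1 u w (hu _) (hu _) (hw _) (hw _)
  · rw [idx_none] at hw
    have := h3 w (hw _) (hw _)
    have := h1 (v (i + 2)) w (fun e => e6 (hv e).symm) (fun e => e7 (hv e).symm) (hw _) (hw _)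
    simp only [cs, sum3 i, this]
    omega
  · have := h3 (v (i + 2)) (fun e => e6 (hv e).symm) (fun e => e7 (hv e).symm)
    rw [tn_eq v i G, tn_eq v i H, h2]
    omega

lemma tkey_iff_key (hv : Function.Injective v) (i : Fin 3)
    (s t : Bip.Mat (rsum v x₀) (csum v x₀)) :
    tkey (v i) (v (i + 1)) (ofMat hv s) = tkey (v i) (v (i + 1)) (ofMat hv t) ↔
      Bip.key {i, i + 1} s = Bip.key {i, i + 1} t := by
  obtain ⟨-, -, -, -, e5, e6, e7, e8⟩ := fin3 i
  obtain ⟨s1, s2, s3⟩ := entry_in hv s i
  obtain ⟨t1, t2, t3⟩ := entry_in hv t i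
  rw [tkey_eq_iff, Bip.key_eq_iff _ ⟨i, by simp⟩]
  simp only [ofMat, adj_mkO, Finset.sum_pair e5]
  have hb : ∀ x y : Bool, ((!x) = !y) ↔ x = y := by decide
  constructor
  · rintro ⟨h1, h2, h3⟩
    refine ⟨fun l hl => ?_, fun j => ?_⟩
    · have : l = i + 2 := by
        rcases e8 l with rfl | rfl | rfl <;> simp_all
      subst this
      funext j
      rcases j with - | w
      · rwa [s1, t1, hb] at h2
      · have := (idx_none v w.1).1 w.2
        simpa only [(entry_cross hv _ _ w).1] using
          h1 (v (i + 2)) w.1 (fun e => e6 (hv e).symm) (fun e => e7 (hv e).symm) (this _) (this _)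
    · rcases j with - | w
      · have := h3 (v (i + 2)) (fun e => e6 (hv e).symm) (fun e => e7 (hv e).symm)
        rw [s2, t2, s3, t3] at this
        simp only [not_toNat] at this
        have := Bool.toNat_le (s.val (i + 1) none)
        have := Bool.toNat_le (t.val (i + 1) none)
        have := Bool.toNat_le (s.val i none)
        have := Bool.toNat_le (t.val i none)
        omega
      · have := (idx_none v w.1).1 w.2
        simpa only [(entry_cross hv _ _ w).1] using h3 w.1 (this _) (this _)
  · rintro ⟨h1, h2⟩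
    have h1 : s.val (i + 2) = t.val (i + 2) := h1 _ (by simp [e6.symm, e7.symm])
    refine ⟨fun u w hu hu' hw hw' => ?_, by rw [s1, t1, h1], fun w hw hw' => ?_⟩
    · rcases hiu : idx v u with - | k <;> rcases hiw : idx v w with - | l
      · rw [entry_out s hiu hiw, entry_out t hiu hiw]
      · obtain rfl := idx_some v hiw
        have : l = i + 2 := by rcases e8 l with rfl | rfl | rfl <;> simp_all
        rw [(entry_cross hv s l ⟨u, hiu⟩).2, (entry_cross hv t l ⟨u, hiu⟩).2, this, h1]
      · obtain rfl := idx_some v hiu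
        have : k = i + 2 := by rcases e8 k with rfl | rfl | rfl <;> simp_all
        rw [(entry_cross hv s k ⟨w, hiw⟩).1, (entry_cross hv t k ⟨w, hiw⟩).1, this, h1]
      · obtain rfl := idx_some v hiu
        obtain rfl := idx_some v hiw
        have hk : k = i + 2 := by rcases e8 k with rfl | rfl | rfl <;> simp_all
        have hl : l = i + 2 := by rcases e8 l with rfl | rfl | rfl <;> simp_all
        rw [hk, hl, entry_self, entry_self]
    · rcases hiw : idx v w with - | l
      · simp only [(entry_cross hv _ _ ⟨w, hiw⟩).1]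
        exact h2 (some ⟨w, hiw⟩)
      · obtain rfl := idx_some v hiw
        have : l = i + 2 := by rcases e8 l with rfl | rfl | rfl <;> simp_all
        rw [this, s2, t2, s3, t3]
        have := h2 none
        simp only [not_toNat]
        have := Bool.toNat_le (s.val (i + 1) none)
        have := Bool.toNat_le (t.val (i + 1) none)
        have := Bool.toNat_le (s.val i none)
        have := Bool.toNat_le (t.val i none)
        omega

lemma fibre_nonneg (hv : Function.Injective v) (x₀ : Omega d) (f : Omega d → ℝ) :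
    0 ≤ ip (fun x : {G : Omega d // tri v G = tri v x₀} => dev (tkey (v 0) (v 1)) f x.1)
          (fun x => dev (tkey (v 2) (v 0)) f x.1)
      + ip (fun x : {G : Omega d // tri v G = tri v x₀} => dev (tkey (v 0) (v 1)) f x.1)
          (fun x => dev (tkey (v 1) (v 2)) f x.1)
      + ip (fun x : {G : Omega d // tri v G = tri v x₀} => dev (tkey (v 2) (v 0)) f x.1)
          (fun x => dev (tkey (v 1) (v 2)) f x.1) := by
  classical
  set e := fibEquiv x₀ hv with he
  set g := fun t => f (e t).1 with hg
  have hdev : ∀ (i j : Fin 3), j = i + 1 → ∀ s,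
      dev (tkey (v i) (v j)) f (e s).1 = dev (Bip.key {i, j}) g s := by
    rintro i j rfl s
    exact dev_transfer (tri v) (tkey (v i) (v (i + 1))) (Bip.key {i, i + 1}) _ e
      (fun x y h => tri_of_tkey hv i h) (fun s t => tkey_iff_key hv i s t) f s
  have h := Bip.triple_nonneg (a := (0 : Fin 3)) (b := 1) (d := 2) (by decide) (by decide)
    (by decide) g
  rw [Finset.pair_comm (0 : Fin 3) 2] at h
  simp only [ip, ← e.sum_comp] at h ⊢
  simp only [hdev 0 1 rfl, hdev 2 0 rfl, hdev 1 2 rfl]
  exact h

end Tri

open Tri in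
/-- The three trades inside a triple have nonnegative total correlation. -/
theorem triple_nonneg {a b c : Fin n} (hab : a ≠ b) (hac : a ≠ c) (hbc : b ≠ c)
    (f : Omega d → ℝ) :
    0 ≤ ip (dev (tkey a b) f) (dev (tkey a c) f) + ip (dev (tkey a b) f) (dev (tkey b c) f)
      + ip (dev (tkey a c) f) (dev (tkey b c) f) := by
  classical
  let v : Fin 3 → Fin n := ![a, b, c]
  have hv : Function.Injective v := by
    intro i j h
    fin_cases i <;> fin_cases j <;> simp_all [v, hab.symm, hac.symm, hbc.symm]
  rw [← dev_tkey_comm a c]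
  let κ : Omega d → Set.range (tri (d := d) v) := Set.rangeFactorization (tri v)
  have : Fintype (Set.range (tri (d := d) v)) := Fintype.ofFinite _
  rw [ip_fibrewise κ, ip_fibrewise κ, ip_fibrewise κ, ← Finset.sum_add_distrib,
    ← Finset.sum_add_distrib]
  refine Finset.sum_nonneg ?_
  rintro ⟨z, x₀, rfl⟩ -
  have h := fibre_nonneg hv x₀ f
  let e : {x // κ x = ⟨tri v x₀, x₀, rfl⟩} ≃ {G : Omega d // tri v G = tri v x₀} :=
    Equiv.subtypeEquivRight fun x => by simp [κ, Subtype.ext_iff, Set.rangeFactorization]
  simp only [ip] at h ⊢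
  simp only [← e.sum_comp] at h
  exact h

end Graph

end Vale.Agent.P335
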